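import Vale.Agent.Lib.P038.Sat.Shapes.S5_0f
noncomputable section
namespace Vale.Agent.Lib.P038.Sat.I.L1_5
open Vale.Agent.Lib.P038.Sat
def W : Nat := 1090
def M : Nat := 13264634072747908684349135042570964634799744598942817868637887399685674733928143053911515706257383390916580334915866585424842505413315361299956590178516238986216565917389053058381703265785821026139489414576389820813279722433720660696636021515823320684351327863593944321381722660223746213949363159606624666472133934520303274164223
def GT : Nat := 1656427733627338579558184001400676806100593287727631548101154438232512443029532741525641150220135212783241360412946728981942700910162522629016069053731468799912264987877767586841880484556299982664120736944809668579925454483512442159549506023215452624705932594523853990917694181784439374624926260875429737114342280482057649367189931431510825001495257453084080856168157776093837701061101239058553238009291325265119578731480031556348533723732234749333550858561379701485865250001140375802600763834102210513771811919626470474965041989915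59158761525477532100202554779107610732169388730888296715214214524114582876795165480520604296998503517136513474673797540860319557503338447400969920483866902600384388757830600727529311725451366354385900515085958619220731863996045217278757613925259500627892815041153346414314864005612290799366739829124049884180610799455014734018527443118352886543178641993841034513300376210418115101625590497923714311913624858718602453908920403837235208722042070159706208617543146612145891047303087406120356199863757855037439231583775104183072335409686837058786302263986669542434407923025073745877360937702978368779252250705002607518676539274499468644350832471787215035373322236278883321212130443702655725248698285161072572885941559449098038837895599855109871042606359281349116101786878403703600953639419294748483392930532905635480944302284824488348272099688006538725355276092648702097721093007882379424719219172019247273530624092824609218385699191823286764709250605463039726697439885816717776626109149105838213682158489349529834296381313915460729633646566243985797281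09501769635435637319370348007739381818376391560729181214214344195160168507143680609576431692482505203808432907069124320744149837497070395975867405601909318513289157251492914565567118102942105913143634889707451641428318400699780413691804260345293262081538766052987005650079044750781151134082569205440034208343298837420598644994569148209871804327774546381824532452528421557557352406461708738787518800291491516792265247369363584806886719578667724329126493114957256510671086268737742988189021809158008936909662379803300297893622185437816928498405729637689577301591074795575147140129478288962910223388117958004174981369874986687685854128495140972649956163077937161257317681582389609520309870883583441548370822436496004312891729296042160253995160605264632844842468601004106154265312249149676646350830017202502707488454080613506692460975167226877924225375855636330085230744627474597178807604454122571048598059775832716629411535049293081048138145450697666785048751696314325890982913990506713050543338788849340036180274997304567901115761371138742545802949662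98017349101623669676072241964722364749863842464403724136917217893054939656188308371829602676415146528510988902761121081063322911577175160567505126958309807795328362861912483051318811855007045084446191181466010826001392169924654412299316074406617920915985461915339202681678367704205414788687390681498006638151828318644617064407172293865169348065798375998953812229371107167525162153984405979984864903595015557906048310164709271390202179329366521498594379395044833042480099704900269576723158264537370395455553020260147086207263111677206860867843152031192178955624308649620061700922601197915491249543484626077078366279712883889055347705921220082379865341463971003849299892236355989153355682745233917756059699995292664899806153404458844572142521207719831941994791285266899531648463026140411148654396619243039644070487061744423837739049733367010292336734752889725350248198573100999413895243044719808847437481831974866926408038781319603856296897433495111732778193889241069627355393295533957647049401487545018152557344915976497438319732728376122089543431755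41803895377781184358807377992533832347243227133895746125631301275788528160138865991885865440666642551567131590265161144899426324359125911005983182489678262319727838539631575132655269730333471384526592438793223235392902925438216407251647359926197469925550292789559438773098224219019601948990199083112822911132781158323278378167635635769460896620224778448932403510081921521827193698711967457458590828066128447151272532098886952576505433689801582651219720797600924104889887347815087286678397468324439253083072952745490381638472113622179374566205454951685098967339916617626462126687337444250333773568415537968680444675233808280936856594964315809241624133212632646682880008441994037762769528394361349102047820893253097056925244778472865380779592512516523122064403364824642852421629123656090070185675860060859904101197523158909737349960201295556016257163729897170893832232803397497978903791388562326812144870768188314091940816633447309336473971362998934809871807228008817172978904191279273163207086808039683851989644800833731180308393888900049382885531361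51648722933599723102883479441781213893191477699940607053722722131978761491535417512515172915633765216103615190545836558635954188208008495969694730132519315468429207221745467514587481000746281734142685104600499885558905230114999820522982417307535767919646715801451653423852831277524744575422607429957427416090328883806890568011978878968298847404841357778766593672852400469496509822242566185370600432753751186303335162453488517771194247347496936404091933226572628663450664879399275782844447130311237608431510500158271046894024911794083264668657016423176835986091270529182580452607861308240328303159507141154698886516678488578380616131184763394897774943941294102973159776687209545703542059932466479661164812227074970947764040364587035092535035420204545006284378208104228941907805669758137565960502904050118898479029908784503611393327275422257181285863052196733784805481501276350484563516087602666834771976660069126067340331908681345566848327479788580301324554743572285725091926755731596167105708906667159731536856615304313713233819990006900156339815963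58669074086617908840467146465847489470575775711195796314220622328948966456573597616072198119133814018245968656906951578309178068665714707221592450558139761892329430423020657987992885790010409198398639676617598826622622753976357404481293222903669161209544696001830172156299853426606178716700688732799908039803425631655276417202627179646369807365203893094478276458388976928343712661417160897276327201074156239311477526339289753112981771582730758921805308951064466974921399813393459895106704253762238484075061732733559954705581424669525288691652708166333312560277923676258786011095183289643378617290938120327604251803849292039540010674096245648730012894843754710407845980769086957539615506151569656844657275795845942801497528750081119287171844627063061839521800635571897308725186277005537976356347020511318474775349146096020032515502838412213269239762761144403788005684333688846127673677045442609448690413230207090666125484355152257421692988827729913757920007301992129651512070768598791472831175760373397274701622655686111151710053326674732403041880074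7411392884988943630861664950431451086109876025547442274075972901327502010917267752356725260268622436405555549125544885638664861495177443241608307694322283718631315913846738554940132119166396728803098721010623331979210265392801817716394076982330012876390035959339921747397118015064140649014768586483801362595079013572471309323483270095677925178445372301604584776275371641347451084434226739930267458426398753443541316673965477860909584272525633647956101223298208570525956884569496815879430089878439856527017684479676022475902734785905515335651743030506963418484637026288473499995672386885927419892622254242076350370885475610256459851389354298895780194293826242286962324290680237163266172822338648264575616935105877594841529960385486964852256529258175761772349154012478535261900231978171064163725194661994648348463996354961079646940825734357966188736195008271724810851123252753365525280722556370149141630525006080709653376896707197509535042292143540953520611984485124769450915940983311071626040538656502647482211217001801679133028124805961141503138305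
def h0 : T := (T.n (nat_lit 255) (T.n (nat_lit 127) (T.n (nat_lit 63) (T.n (nat_lit 31) (T.n (nat_lit 15) (T.n (nat_lit 7) (T.n (nat_lit 3) (T.n (nat_lit 1) (T.n (nat_lit 0) (T.l (nat_lit 1819724)) (T.l (nat_lit 1819722))) (T.n (nat_lit 2) (T.l (nat_lit 2368800)) (T.l (nat_lit 3007876)))) (T.n (nat_lit 5) (T.n (nat_lit 4) (T.l (nat_lit 1918229)) (T.l (nat_lit 4195423))) (T.n (nat_lit 6) (T.l (nat_lit 6104156)) (T.l (nat_lit 2598125))))) (T.n (nat_lit 11) (T.n (nat_lit 9) (T.n (nat_lit 8) (T.l (nat_lit 388205451535519)) (T.l (nat_lit 2587660880796076548815))) (T.n (nat_lit 10) (T.l (nat_lit 315277338655925378)) (T.l (nat_lit 206817785446583)))) (T.n (nat_lit 13) (T.n (nat_lit 12) (T.l (nat_lit 74367885479)) (T.l (nat_lit 74838696098))) (T.n (nat_lit 14) (T.l (nat_lit 6800805)) (T.l (nat_lit 3687722)))))) (T.n (nat_lit 23) (T.n (nat_lit 19) (T.n (nat_lit 17) (T.n (nat_lit 16) (T.l (nat_lit 5490578513436131389)) (T.l (nat_lit 5463555825150959757))) (T.n (nat_lit 18) (T.l (nat_lit 6058094763141808669)) (T.l (nat_lit 6157151423209095560))))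 (T.n (nat_lit 21) (T.n (nat_lit 20) (T.l (nat_lit 726317830963722)) (T.l (nat_lit 115039766130))) (T.n (nat_lit 22) (T.l (nat_lit 32147924266)) (T.l (nat_lit 3459286546607431705218079073603))))) (T.n (nat_lit 27) (T.n (nat_lit 25) (T.n (nat_lit 24) (T.l (nat_lit 76515251720580655343501411)) (T.l (nat_lit 245266532672761))) (T.n (nat_lit 26) (T.l (nat_lit 2157410619209811223)) (T.l (nat_lit 2763134193443545716425297215515)))) (T.n (nat_lit 29) (T.n (nat_lit 28) (T.l (nat_lit 338511664786445901488316492)) (T.l (nat_lit 338213200466802373099593827))) (T.n (nat_lit 30) (T.l (nat_lit 6350742632490822418459)) (T.l (nat_lit 2157410630342591902))))))) (T.n (nat_lit 47) (T.n (nat_lit 39) (T.n (nat_lit 35) (T.n (nat_lit 33) (T.n (nat_lit 32) (T.l (nat_lit 21687123976)) (T.l (nat_lit 2116210507165811044181221))) (T.n (nat_lit 34) (T.l (nat_lit 93292118624)) (T.l (nat_lit 5377915912034599034)))) (T.n (nat_lit 37) (T.n (nat_lit 36) (T.l (nat_lit 635530816692701)) (T.l (nat_lit 43836160870204006564159))) (T.n (nat_lit 38) (T.l (nat_lit 79468798082))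 (T.l (nat_lit 24095696148238190624795709855686675))))) (T.n (nat_lit 43) (T.n (nat_lit 41) (T.n (nat_lit 40) (T.l (nat_lit 37457819264109)) (T.l (nat_lit 653189777473666))) (T.n (nat_lit 42) (T.l (nat_lit 43834931957119337619730)) (T.l (nat_lit 7431610238222809168561660016)))) (T.n (nat_lit 45) (T.n (nat_lit 44) (T.l (nat_lit 1094411547663049837)) (T.l (nat_lit 13353090))) (T.n (nat_lit 46) (T.l (nat_lit 181960618807501471446195026633483314445)) (T.l (nat_lit 610858703814902)))))) (T.n (nat_lit 55) (T.n (nat_lit 51) (T.n (nat_lit 49) (T.n (nat_lit 48) (T.l (nat_lit 9012501)) (T.l (nat_lit 115637707002))) (T.n (nat_lit 50) (T.l (nat_lit 90721327581832341)) (T.l (nat_lit 480007167408549389380)))) (T.n (nat_lit 53) (T.n (nat_lit 52) (T.l (nat_lit 2162791)) (T.l (nat_lit 481932992911180875))) (T.n (nat_lit 54) (T.l (nat_lit 491659)) (T.l (nat_lit 958514))))) (T.n (nat_lit 59) (T.n (nat_lit 57) (T.n (nat_lit 56) (T.l (nat_lit 10069299)) (T.l (nat_lit 9340030))) (T.n (nat_lit 58) (T.l (nat_lit 10896567)) (T.l (nat_lit 196699)))) (T.n (nat_lit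 61) (T.n (nat_lit 60) (T.l (nat_lit 1556564)) (T.l (nat_lit 9676038))) (T.n (nat_lit 62) (T.l (nat_lit 9127062)) (T.l (nat_lit 10487121)))))))) (T.n (nat_lit 95) (T.n (nat_lit 79) (T.n (nat_lit 71) (T.n (nat_lit 67) (T.n (nat_lit 65) (T.n (nat_lit 64) (T.l (nat_lit 827503)) (T.l (nat_lit 1277975))) (T.n (nat_lit 66) (T.l (nat_lit 9839950)) (T.l (nat_lit 9757785)))) (T.n (nat_lit 69) (T.n (nat_lit 68) (T.l (nat_lit 10208513)) (T.l (nat_lit 1220753))) (T.n (nat_lit 70) (T.l (nat_lit 1540124)) (T.l (nat_lit 11142355))))) (T.n (nat_lit 75) (T.n (nat_lit 73) (T.n (nat_lit 72) (T.l (nat_lit 10151006)) (T.l (nat_lit 11142238))) (T.n (nat_lit 74) (T.l (nat_lit 10470620)) (T.l (nat_lit 10151132)))) (T.n (nat_lit 77) (T.n (nat_lit 76) (T.l (nat_lit 1196175)) (T.l (nat_lit 1851433))) (T.n (nat_lit 78) (T.l (nat_lit 270518)) (T.l (nat_lit 1458230)))))) (T.n (nat_lit 87) (T.n (nat_lit 83) (T.n (nat_lit 81) (T.n (nat_lit 80) (T.l (nat_lit 262302)) (T.l (nat_lit 1392683))) (T.n (nat_lit 82) (T.l (nat_lit 811081)) (T.l (nat_lit 1360025)))) (T.n (nat_lit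 85) (T.n (nat_lit 84) (T.l (nat_lit 1163393)) (T.l (nat_lit 426009))) (T.n (nat_lit 86) (T.l (nat_lit 942235)) (T.l (nat_lit 1245348))))) (T.n (nat_lit 91) (T.n (nat_lit 89) (T.n (nat_lit 88) (T.l (nat_lit 1130619)) (T.l (nat_lit 835702))) (T.n (nat_lit 90) (T.l (nat_lit 1228935)) (T.l (nat_lit 1384573)))) (T.n (nat_lit 93) (T.n (nat_lit 92) (T.l (nat_lit 1319036)) (T.l (nat_lit 819298))) (T.n (nat_lit 94) (T.l (nat_lit 1958165)) (T.l (nat_lit 2580760))))))) (T.n (nat_lit 111) (T.n (nat_lit 103) (T.n (nat_lit 99) (T.n (nat_lit 97) (T.n (nat_lit 96) (T.l (nat_lit 2072805)) (T.l (nat_lit 147465))) (T.n (nat_lit 98) (T.l (nat_lit 148673)) (T.l (nat_lit 540680)))) (T.n (nat_lit 101) (T.n (nat_lit 100) (T.l (nat_lit 541893)) (T.l (nat_lit 770058))) (T.n (nat_lit 102) (T.l (nat_lit 771385)) (T.l (nat_lit 1597469))))) (T.n (nat_lit 107) (T.n (nat_lit 105) (T.n (nat_lit 104) (T.l (nat_lit 1599080)) (T.l (nat_lit 2727966))) (T.n (nat_lit 106) (T.l (nat_lit 1720531)) (T.l (nat_lit 5005942)))) (T.n (nat_lit 109) (T.n (nat_lit 108) (T.l (nat_lit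 2252983)) (T.l (nat_lit 4063679))) (T.n (nat_lit 110) (T.l (nat_lit 4448364)) (T.l (nat_lit 2408551)))))) (T.n (nat_lit 119) (T.n (nat_lit 115) (T.n (nat_lit 113) (T.n (nat_lit 112) (T.l (nat_lit 4645246)) (T.l (nat_lit 5431823))) (T.n (nat_lit 114) (T.l (nat_lit 10764616)) (T.l (nat_lit 2327875)))) (T.n (nat_lit 117) (T.n (nat_lit 116) (T.l (nat_lit 2820051)) (T.l (nat_lit 4565072))) (T.n (nat_lit 118) (T.l (nat_lit 4801291)) (T.l (nat_lit 2179724))))) (T.n (nat_lit 123) (T.n (nat_lit 121) (T.n (nat_lit 120) (T.l (nat_lit 1507841)) (T.l (nat_lit 1581449))) (T.n (nat_lit 122) (T.l (nat_lit 3752595)) (T.l (nat_lit 6390659)))) (T.n (nat_lit 125) (T.n (nat_lit 124) (T.l (nat_lit 8160273)) (T.l (nat_lit 11559276))) (T.n (nat_lit 126) (T.l (nat_lit 2483497)) (T.l (nat_lit 3335903))))))))) (T.n (nat_lit 191) (T.n (nat_lit 159) (T.n (nat_lit 143) (T.n (nat_lit 135) (T.n (nat_lit 131) (T.n (nat_lit 129) (T.n (nat_lit 128) (T.l (nat_lit 4597767)) (T.l (nat_lit 4056021))) (T.n (nat_lit 130) (T.l (nat_lit 1688135)) (T.l (nat_lit 1638870)))) (T.n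 (nat_lit 133) (T.n (nat_lit 132) (T.l (nat_lit 3072523)) (T.l (nat_lit 6267758))) (T.n (nat_lit 134) (T.l (nat_lit 8561683)) (T.l (nat_lit 5137431))))) (T.n (nat_lit 139) (T.n (nat_lit 137) (T.n (nat_lit 136) (T.l (nat_lit 1466987)) (T.l (nat_lit 2228677))) (T.n (nat_lit 138) (T.l (nat_lit 3916330)) (T.l (nat_lit 6595461)))) (T.n (nat_lit 141) (T.n (nat_lit 140) (T.l (nat_lit 4457496)) (T.l (nat_lit 2188008))) (T.n (nat_lit 142) (T.l (nat_lit 1868308)) (T.l (nat_lit 4211257)))))) (T.n (nat_lit 151) (T.n (nat_lit 147) (T.n (nat_lit 145) (T.n (nat_lit 144) (T.l (nat_lit 5997495)) (T.l (nat_lit 5227545))) (T.n (nat_lit 146) (T.l (nat_lit 1802991)) (T.l (nat_lit 2458133)))) (T.n (nat_lit 149) (T.n (nat_lit 148) (T.l (nat_lit 3891787)) (T.l (nat_lit 7144406))) (T.n (nat_lit 150) (T.l (nat_lit 66948)) (T.l (nat_lit 83332))))) (T.n (nat_lit 155) (T.n (nat_lit 153) (T.n (nat_lit 152) (T.l (nat_lit 75163)) (T.l (nat_lit 2639259))) (T.n (nat_lit 154) (T.l (nat_lit 247084)) (T.l (nat_lit 1730249)))) (T.n (nat_lit 157) (T.n (nat_lit 156) (T.l (nat_lit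 5163017)) (T.l (nat_lit 14239020))) (T.n (nat_lit 158) (T.l (nat_lit 14280035)) (T.l (nat_lit 3008325))))))) (T.n (nat_lit 175) (T.n (nat_lit 167) (T.n (nat_lit 163) (T.n (nat_lit 161) (T.n (nat_lit 160) (T.l (nat_lit 11961777)) (T.l (nat_lit 10331547))) (T.n (nat_lit 162) (T.l (nat_lit 3032901)) (T.l (nat_lit 5351181)))) (T.n (nat_lit 165) (T.n (nat_lit 164) (T.l (nat_lit 1402693)) (T.l (nat_lit 1402637))) (T.n (nat_lit 166) (T.l (nat_lit 9699626)) (T.l (nat_lit 9470250))))) (T.n (nat_lit 171) (T.n (nat_lit 169) (T.n (nat_lit 168) (T.l (nat_lit 11370830)) (T.l (nat_lit 9077070))) (T.n (nat_lit 170) (T.l (nat_lit 10649978)) (T.l (nat_lit 11657617)))) (T.n (nat_lit 173) (T.n (nat_lit 172) (T.l (nat_lit 15458880)) (T.l (nat_lit 1885626))) (T.n (nat_lit 174) (T.l (nat_lit 6529384)) (T.l (nat_lit 1630525)))))) (T.n (nat_lit 183) (T.n (nat_lit 179) (T.n (nat_lit 177) (T.n (nat_lit 176) (T.l (nat_lit 8111487)) (T.l (nat_lit 2859774))) (T.n (nat_lit 178) (T.l (nat_lit 4720672)) (T.l (nat_lit 6365955)))) (T.n (nat_lit 181) (T.n (nat_lit 180)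 (T.l (nat_lit 4719307)) (T.l (nat_lit 2680396))) (T.n (nat_lit 182) (T.l (nat_lit 2852487)) (T.l (nat_lit 2082439))))) (T.n (nat_lit 187) (T.n (nat_lit 185) (T.n (nat_lit 184) (T.l (nat_lit 12617196)) (T.l (nat_lit 14607948))) (T.n (nat_lit 186) (T.l (nat_lit 14434901)) (T.l (nat_lit 13698695)))) (T.n (nat_lit 189) (T.n (nat_lit 188) (T.l (nat_lit 13526639)) (T.l (nat_lit 13174240))) (T.n (nat_lit 190) (T.l (nat_lit 13190600)) (T.l (nat_lit 12281339)))))))) (T.n (nat_lit 223) (T.n (nat_lit 207) (T.n (nat_lit 199) (T.n (nat_lit 195) (T.n (nat_lit 193) (T.n (nat_lit 192) (T.l (nat_lit 12084819)) (T.l (nat_lit 13584058))) (T.n (nat_lit 194) (T.l (nat_lit 14854017)) (T.l (nat_lit 13747842)))) (T.n (nat_lit 197) (T.n (nat_lit 196) (T.l (nat_lit 15214411)) (T.l (nat_lit 11068712))) (T.n (nat_lit 198) (T.l (nat_lit 11167135)) (T.l (nat_lit 10282249))))) (T.n (nat_lit 203) (T.n (nat_lit 201) (T.n (nat_lit 200) (T.l (nat_lit 7759568)) (T.l (nat_lit 6038771))) (T.n (nat_lit 202) (T.l (nat_lit 6038941)) (T.l (nat_lit 6186302)))) (T.n (nat_lit 205)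 (T.n (nat_lit 204) (T.l (nat_lit 13748003)) (T.l (nat_lit 5506363))) (T.n (nat_lit 206) (T.l (nat_lit 1352947)) (T.l (nat_lit 2237758)))))) (T.n (nat_lit 215) (T.n (nat_lit 211) (T.n (nat_lit 209) (T.n (nat_lit 208) (T.l (nat_lit 2139451)) (T.l (nat_lit 6285059))) (T.n (nat_lit 210) (T.l (nat_lit 4818333)) (T.l (nat_lit 2098750)))) (T.n (nat_lit 213) (T.n (nat_lit 212) (T.l (nat_lit 2975217)) (T.l (nat_lit 4146480))) (T.n (nat_lit 214) (T.l (nat_lit 3122669)) (T.l (nat_lit 2098669))))) (T.n (nat_lit 219) (T.n (nat_lit 217) (T.n (nat_lit 216) (T.l (nat_lit 4490059)) (T.l (nat_lit 6308473))) (T.n (nat_lit 218) (T.l (nat_lit 2089197)) (T.l (nat_lit 7176415)))) (T.n (nat_lit 221) (T.n (nat_lit 220) (T.l (nat_lit 8381445)) (T.l (nat_lit 7857026))) (T.n (nat_lit 222) (T.l (nat_lit 8143878)) (T.l (nat_lit 7644097))))))) (T.n (nat_lit 239) (T.n (nat_lit 231) (T.n (nat_lit 227) (T.n (nat_lit 225) (T.n (nat_lit 224) (T.l (nat_lit 7562195)) (T.l (nat_lit 8152073))) (T.n (nat_lit 226) (T.l (nat_lit 7709615)) (T.l (nat_lit 6497202)))) (T.n (nat_lit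 229) (T.n (nat_lit 228) (T.l (nat_lit 8029019)) (T.l (nat_lit 3703196))) (T.n (nat_lit 230) (T.l (nat_lit 5636773)) (T.l (nat_lit 3506675))))) (T.n (nat_lit 235) (T.n (nat_lit 233) (T.n (nat_lit 232) (T.l (nat_lit 4006396)) (T.l (nat_lit 3441071))) (T.n (nat_lit 234) (T.l (nat_lit 2334958)) (T.l (nat_lit 3252651)))) (T.n (nat_lit 237) (T.n (nat_lit 236) (T.l (nat_lit 5826029)) (T.l (nat_lit 3432870))) (T.n (nat_lit 238) (T.l (nat_lit 7701446)) (T.l (nat_lit 13641149)))))) (T.n (nat_lit 247) (T.n (nat_lit 243) (T.n (nat_lit 241) (T.n (nat_lit 240) (T.l (nat_lit 9430294)) (T.l (nat_lit 10298661))) (T.n (nat_lit 242) (T.l (nat_lit 10978928)) (T.l (nat_lit 10298992)))) (T.n (nat_lit 245) (T.n (nat_lit 244) (T.l (nat_lit 9430640)) (T.l (nat_lit 14337505))) (T.n (nat_lit 246) (T.l (nat_lit 12133891)) (T.l (nat_lit 10462425))))) (T.n (nat_lit 251) (T.n (nat_lit 249) (T.n (nat_lit 248) (T.l (nat_lit 12133593)) (T.l (nat_lit 10085663))) (T.n (nat_lit 250) (T.l (nat_lit 11380424)) (T.l (nat_lit 14141265)))) (T.n (nat_lit 253) (T.n (nat_lit 252)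 (T.l (nat_lit 11380561)) (T.l (nat_lit 14624355))) (T.n (nat_lit 254) (T.l (nat_lit 13878633)) (T.l (nat_lit 10626347)))))))))) (T.n (nat_lit 383) (T.n (nat_lit 319) (T.n (nat_lit 287) (T.n (nat_lit 271) (T.n (nat_lit 263) (T.n (nat_lit 259) (T.n (nat_lit 257) (T.n (nat_lit 256) (T.l (nat_lit 11175289)) (T.l (nat_lit 11544470))) (T.n (nat_lit 258) (T.l (nat_lit 14198487)) (T.l (nat_lit 15607580)))) (T.n (nat_lit 261) (T.n (nat_lit 260) (T.l (nat_lit 13968866)) (T.l (nat_lit 13911609))) (T.n (nat_lit 262) (T.l (nat_lit 5674576216252646546)) (T.l (nat_lit 671047341214516294))))) (T.n (nat_lit 267) (T.n (nat_lit 265) (T.n (nat_lit 264) (T.l (nat_lit 597018694550065075556352565250)) (T.l (nat_lit 27068332847350852))) (T.n (nat_lit 266) (T.l (nat_lit 613695665)) (T.l (nat_lit 54407675696890921865389148)))) (T.n (nat_lit 269) (T.n (nat_lit 268) (T.l (nat_lit 405905540575144355022)) (T.l (nat_lit 405905540575147081901))) (T.n (nat_lit 270) (T.l (nat_lit 184288610399267371842052724518302737577)) (T.l (nat_lit 5350930578480178415)))))) (T.n (nat_lit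 279) (T.n (nat_lit 275) (T.n (nat_lit 273) (T.n (nat_lit 272) (T.l (nat_lit 335174872959781958054117510)) (T.l (nat_lit 40920291688293976907781))) (T.n (nat_lit 274) (T.l (nat_lit 5789326223751504892362944)) (T.l (nat_lit 22635216185389215661299613369312423)))) (T.n (nat_lit 277) (T.n (nat_lit 276) (T.l (nat_lit 27068327277503557)) (T.l (nat_lit 18059009328325699))) (T.n (nat_lit 278) (T.l (nat_lit 4480122717435)) (T.l (nat_lit 627894624485622))))) (T.n (nat_lit 283) (T.n (nat_lit 281) (T.n (nat_lit 280) (T.l (nat_lit 189752813778324443451290720443043103908)) (T.l (nat_lit 5422943084965937329))) (T.n (nat_lit 282) (T.l (nat_lit 4990022547494305969)) (T.l (nat_lit 13123614)))) (T.n (nat_lit 285) (T.n (nat_lit 284) (T.l (nat_lit 30525561462259140073766924)) (T.l (nat_lit 10330215))) (T.n (nat_lit 286) (T.l (nat_lit 3625215527)) (T.l (nat_lit 5607644066390753745))))))) (T.n (nat_lit 303) (T.n (nat_lit 295) (T.n (nat_lit 291) (T.n (nat_lit 289) (T.n (nat_lit 288) (T.l (nat_lit 90271170879)) (T.l (nat_lit 74368524450))) (T.n (nat_lit 290)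 (T.l (nat_lit 405905536721547010145)) (T.l (nat_lit 3325178156815280287531181)))) (T.n (nat_lit 293) (T.n (nat_lit 292) (T.l (nat_lit 3304239169617)) (T.l (nat_lit 76649341178))) (T.n (nat_lit 294) (T.l (nat_lit 9699647)) (T.l (nat_lit 168383460053021753682373001273))))) (T.n (nat_lit 299) (T.n (nat_lit 297) (T.n (nat_lit 296) (T.l (nat_lit 4958475838692140115)) (T.l (nat_lit 605282695152747))) (T.n (nat_lit 298) (T.l (nat_lit 3062935130740961973544021)) (T.l (nat_lit 4958472536390477111)))) (T.n (nat_lit 301) (T.n (nat_lit 300) (T.l (nat_lit 79736201490)) (T.l (nat_lit 4958472536399183960))) (T.n (nat_lit 302) (T.l (nat_lit 12902782)) (T.l (nat_lit 31341056828967)))))) (T.n (nat_lit 311) (T.n (nat_lit 307) (T.n (nat_lit 305) (T.n (nat_lit 304) (T.l (nat_lit 113002332362014298124743165110341814728212547)) (T.l (nat_lit 40472170009695132221497))) (T.n (nat_lit 306) (T.l (nat_lit 5233483536235750879453464983560553)) (T.l (nat_lit 18058930082260036)))) (T.n (nat_lit 309) (T.n (nat_lit 308) (T.l (nat_lit 1506493166923475478379627032866135882930473567423138212342630655385865))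 (T.l (nat_lit 5309953))) (T.n (nat_lit 310) (T.l (nat_lit 792380165142344970325511513656)) (T.l (nat_lit 792380165142344970325513684350))))) (T.n (nat_lit 315) (T.n (nat_lit 313) (T.n (nat_lit 312) (T.l (nat_lit 43571227528596248994932)) (T.l (nat_lit 85617366898820204))) (T.n (nat_lit 314) (T.l (nat_lit 324259805413213521)) (T.l (nat_lit 5580571279529771042)))) (T.n (nat_lit 317) (T.n (nat_lit 316) (T.l (nat_lit 36811112910503965)) (T.l (nat_lit 1221086840376468566))) (T.n (nat_lit 318) (T.l (nat_lit 48973978485908)) (T.l (nat_lit 48973977699440)))))))) (T.n (nat_lit 351) (T.n (nat_lit 335) (T.n (nat_lit 327) (T.n (nat_lit 323) (T.n (nat_lit 321) (T.n (nat_lit 320) (T.l (nat_lit 80004784427)) (T.l (nat_lit 1438945729444026843245))) (T.n (nat_lit 322) (T.l (nat_lit 546915503)) (T.l (nat_lit 2842316984756503315178327580685)))) (T.n (nat_lit 325) (T.n (nat_lit 324) (T.l (nat_lit 23284260727338248416755942468928697)) (T.l (nat_lit 190744663878038834038517334529358431313))) (T.n (nat_lit 326) (T.l (nat_lit 376322623471826795797954728)) (T.l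 (nat_lit 22594700864444138825892717993968826))))) (T.n (nat_lit 331) (T.n (nat_lit 329) (T.n (nat_lit 328) (T.l (nat_lit 2758137062080387244329297363114)) (T.l (nat_lit 96896657977608701200644277351))) (T.n (nat_lit 330) (T.l (nat_lit 80007938216)) (T.l (nat_lit 82425856636)))) (T.n (nat_lit 333) (T.n (nat_lit 332) (T.l (nat_lit 31476974871)) (T.l (nat_lit 3491209))) (T.n (nat_lit 334) (T.l (nat_lit 495519728568950842)) (T.l (nat_lit 4945012871307378712)))))) (T.n (nat_lit 343) (T.n (nat_lit 339) (T.n (nat_lit 337) (T.n (nat_lit 336) (T.l (nat_lit 41284723069652849852500)) (T.l (nat_lit 338503288789713715407815761))) (T.n (nat_lit 338) (T.l (nat_lit 362114309371091870212547663)) (T.l (nat_lit 5008113849197519966)))) (T.n (nat_lit 341) (T.n (nat_lit 340) (T.l (nat_lit 5026077109014708239)) (T.l (nat_lit 338201057334305310076765266))) (T.n (nat_lit 342) (T.l (nat_lit 337294362794458700765773839)) (T.l (nat_lit 5044104774409658459))))) (T.n (nat_lit 347) (T.n (nat_lit 345) (T.n (nat_lit 344) (T.l (nat_lit 2718572246173501671805022814222))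 (T.l (nat_lit 2434297))) (T.n (nat_lit 346) (T.l (nat_lit 73695838657)) (T.l (nat_lit 603640818180187)))) (T.n (nat_lit 349) (T.n (nat_lit 348) (T.l (nat_lit 4945025509315682324)) (T.l (nat_lit 7481515380641441336))) (T.n (nat_lit 350) (T.l (nat_lit 5246705116338594910)) (T.l (nat_lit 708093207643311))))))) (T.n (nat_lit 367) (T.n (nat_lit 359) (T.n (nat_lit 355) (T.n (nat_lit 353) (T.n (nat_lit 352) (T.l (nat_lit 816656339639187669101)) (T.l (nat_lit 41326822617257629066366))) (T.n (nat_lit 354) (T.l (nat_lit 613054381834402)) (T.l (nat_lit 41320725339365452668963)))) (T.n (nat_lit 357) (T.n (nat_lit 356) (T.l (nat_lit 44199065345450853377103)) (T.l (nat_lit 5044112948000933198))) (T.n (nat_lit 358) (T.l (nat_lit 5460335983620583220303)) (T.l (nat_lit 816682764747598807149))))) (T.n (nat_lit 363) (T.n (nat_lit 361) (T.n (nat_lit 360) (T.l (nat_lit 5460335938543089386578)) (T.l (nat_lit 5460335940739160073297))) (T.n (nat_lit 362) (T.l (nat_lit 81365346362454)) (T.l (nat_lit 666544921955542096)))) (T.n (nat_lit 365) (T.n (nat_lit 364)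 (T.l (nat_lit 5427509902888527112)) (T.l (nat_lit 82822251649))) (T.n (nat_lit 366) (T.l (nat_lit 3929562348201975125303745)) (T.l (nat_lit 334874740258798308916241522)))))) (T.n (nat_lit 375) (T.n (nat_lit 371) (T.n (nat_lit 369) (T.n (nat_lit 368) (T.l (nat_lit 41150972743794865)) (T.l (nat_lit 63061464122983544))) (T.n (nat_lit 370) (T.l (nat_lit 257318787193069622)) (T.l (nat_lit 547837989217335406862798921916552)))) (T.n (nat_lit 373) (T.n (nat_lit 372) (T.l (nat_lit 10893523630277699203074739827591086834783)) (T.l (nat_lit 347006946672587083587060824))) (T.n (nat_lit 374) (T.l (nat_lit 48483916870679633535320)) (T.l (nat_lit 50402571884325841626383))))) (T.n (nat_lit 379) (T.n (nat_lit 377) (T.n (nat_lit 376) (T.l (nat_lit 44462260921638594257195)) (T.l (nat_lit 11454228))) (T.n (nat_lit 378) (T.l (nat_lit 716415175713520)) (T.l (nat_lit 87443792387)))) (T.n (nat_lit 381) (T.n (nat_lit 380) (T.l (nat_lit 10831280)) (T.l (nat_lit 69855977357694196197539874))) (T.n (nat_lit 382) (T.l (nat_lit 102328612372504)) (T.l (nat_lit 338201061288419114859709522)))))))))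 (T.n (nat_lit 447) (T.n (nat_lit 415) (T.n (nat_lit 399) (T.n (nat_lit 391) (T.n (nat_lit 387) (T.n (nat_lit 385) (T.n (nat_lit 384) (T.l (nat_lit 22635278110801824044508746995344481)) (T.l (nat_lit 22716665247399336886770814817976383))) (T.n (nat_lit 386) (T.l (nat_lit 338504690638174666275562578)) (T.l (nat_lit 73823773777)))) (T.n (nat_lit 389) (T.n (nat_lit 388) (T.l (nat_lit 603654366020876)) (T.l (nat_lit 32193131439111580544373416046))) (T.n (nat_lit 390) (T.l (nat_lit 5026038702008116346)) (T.l (nat_lit 448983565861056024321139106956368))))) (T.n (nat_lit 395) (T.n (nat_lit 393) (T.n (nat_lit 392) (T.l (nat_lit 54807564191807258319796142136)) (T.l (nat_lit 3177866009966748804178))) (T.n (nat_lit 394) (T.l (nat_lit 184662983254205535)) (T.l (nat_lit 5755619020989293780)))) (T.n (nat_lit 397) (T.n (nat_lit 396) (T.l (nat_lit 503615054097509633573542189267666886638680159838540070184335)) (T.l (nat_lit 2750188659866))) (T.n (nat_lit 398) (T.l (nat_lit 745010943394128)) (T.l (nat_lit 5581446325518)))))) (T.n (nat_lit 407) (T.n (nat_lit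 403) (T.n (nat_lit 401) (T.n (nat_lit 400) (T.l (nat_lit 6387485268946539093156029)) (T.l (nat_lit 1551781990488022394331270))) (T.n (nat_lit 402) (T.l (nat_lit 6809158895772454883628004444316715074655)) (T.l (nat_lit 5581446022414)))) (T.n (nat_lit 405) (T.n (nat_lit 404) (T.l (nat_lit 188193786305232783766541640916)) (T.l (nat_lit 1161736658137396413789933377348196568437982741240434697512032))) (T.n (nat_lit 406) (T.l (nat_lit 627239447788817055832)) (T.l (nat_lit 344828533722684363866873234038904))))) (T.n (nat_lit 411) (T.n (nat_lit 409) (T.n (nat_lit 408) (T.l (nat_lit 11485962250)) (T.l (nat_lit 639445814747197))) (T.n (nat_lit 410) (T.l (nat_lit 79871451266)) (T.l (nat_lit 14171072140)))) (T.n (nat_lit 413) (T.n (nat_lit 412) (T.l (nat_lit 91817428407)) (T.l (nat_lit 897293305693503))) (T.n (nat_lit 414) (T.l (nat_lit 221297131083096740)) (T.l (nat_lit 4514669781034100))))))) (T.n (nat_lit 431) (T.n (nat_lit 423) (T.n (nat_lit 419) (T.n (nat_lit 417) (T.n (nat_lit 416) (T.l (nat_lit 20299755579040175841832353924171)) (T.l (nat_lit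 624784114758))) (T.n (nat_lit 418) (T.l (nat_lit 258624328001315905642)) (T.l (nat_lit 1362293536221193460203653659452582223878)))) (T.n (nat_lit 421) (T.n (nat_lit 420) (T.l (nat_lit 3630909624132673248748629)) (T.l (nat_lit 5575280443569))) (T.n (nat_lit 422) (T.l (nat_lit 780194443625748)) (T.l (nat_lit 4279667748387898941574))))) (T.n (nat_lit 427) (T.n (nat_lit 425) (T.n (nat_lit 424) (T.l (nat_lit 681689312)) (T.l (nat_lit 24847063291980381921474626830))) (T.n (nat_lit 426) (T.l (nat_lit 775123573774428381221)) (T.l (nat_lit 1498787476289980211251836438053284513882125)))) (T.n (nat_lit 429) (T.n (nat_lit 428) (T.l (nat_lit 40883408030948750409790)) (T.l (nat_lit 303043283382292018847816))) (T.n (nat_lit 430) (T.l (nat_lit 277938211)) (T.l (nat_lit 24848262403794392585423594610)))))) (T.n (nat_lit 439) (T.n (nat_lit 435) (T.n (nat_lit 433) (T.n (nat_lit 432) (T.l (nat_lit 622873404834885)) (T.l (nat_lit 916694835071986400948122859810097000438517646567))) (T.n (nat_lit 434) (T.l (nat_lit 78621061686720)) (T.l (nat_lit 132016423437382))))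 (T.n (nat_lit 437) (T.n (nat_lit 436) (T.l (nat_lit 5023837062213)) (T.l (nat_lit 94588311587882067))) (T.n (nat_lit 438) (T.l (nat_lit 29753820660675873362898214990)) (T.l (nat_lit 246382587016418751909758352605296))))) (T.n (nat_lit 443) (T.n (nat_lit 441) (T.n (nat_lit 440) (T.l (nat_lit 54121884496863242)) (T.l (nat_lit 2770517973482778871236185310283))) (T.n (nat_lit 442) (T.l (nat_lit 5105113823723568)) (T.l (nat_lit 5192652022990389303)))) (T.n (nat_lit 445) (T.n (nat_lit 444) (T.l (nat_lit 2901836326510689293729748788308)) (T.l (nat_lit 639445819826854))) (T.n (nat_lit 446) (T.l (nat_lit 613061161877666)) (T.l (nat_lit 740609742800170)))))))) (T.n (nat_lit 479) (T.n (nat_lit 463) (T.n (nat_lit 455) (T.n (nat_lit 451) (T.n (nat_lit 449) (T.n (nat_lit 448) (T.l (nat_lit 17267559836884615743569989)) (T.l (nat_lit 5873420236692358467))) (T.n (nat_lit 450) (T.l (nat_lit 10682699)) (T.l (nat_lit 40583341406002627650649)))) (T.n (nat_lit 453) (T.n (nat_lit 452) (T.l (nat_lit 70442237649992)) (T.l (nat_lit 5854953384988500326))) (T.n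 (nat_lit 454) (T.l (nat_lit 332170522778302152984536495)) (T.l (nat_lit 766386660540696))))) (T.n (nat_lit 459) (T.n (nat_lit 457) (T.n (nat_lit 456) (T.l (nat_lit 56715860369806)) (T.l (nat_lit 100696325480791))) (T.n (nat_lit 458) (T.l (nat_lit 5868890790548365592)) (T.l (nat_lit 986350585201030)))) (T.n (nat_lit 461) (T.n (nat_lit 460) (T.l (nat_lit 719172277862762)) (T.l (nat_lit 91820102739028))) (T.n (nat_lit 462) (T.l (nat_lit 2251254967278298694747)) (T.l (nat_lit 274811397375623321)))))) (T.n (nat_lit 471) (T.n (nat_lit 467) (T.n (nat_lit 465) (T.n (nat_lit 464) (T.l (nat_lit 19116718319732545013326)) (T.l (nat_lit 2333583800470783299))) (T.n (nat_lit 466) (T.l (nat_lit 604186540295820)) (T.l (nat_lit 6296826766410441306)))) (T.n (nat_lit 469) (T.n (nat_lit 468) (T.l (nat_lit 40551794350343699883378)) (T.l (nat_lit 4945666609153025245))) (T.n (nat_lit 470) (T.l (nat_lit 4950297228356658820)) (T.l (nat_lit 40552834793544288010491))))) (T.n (nat_lit 475) (T.n (nat_lit 473) (T.n (nat_lit 472) (T.l (nat_lit 248557178806607621541550913236767777243229955622528709275365192216965555699847))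 (T.l (nat_lit 28074071444772165975471533357318542))) (T.n (nat_lit 474) (T.l (nat_lit 98452603005)) (T.l (nat_lit 27688705662302784237383000478237015)))) (T.n (nat_lit 477) (T.n (nat_lit 476) (T.l (nat_lit 714218310353020)) (T.l (nat_lit 56718409695630))) (T.n (nat_lit 478) (T.l (nat_lit 93560865048)) (T.l (nat_lit 116092037595494))))))) (T.n (nat_lit 495) (T.n (nat_lit 487) (T.n (nat_lit 483) (T.n (nat_lit 481) (T.n (nat_lit 480) (T.l (nat_lit 93560864892)) (T.l (nat_lit 173789252731735149810435404))) (T.n (nat_lit 482) (T.l (nat_lit 413520980476891805146762962038)) (T.l (nat_lit 5891459375826567613)))) (T.n (nat_lit 485) (T.n (nat_lit 484) (T.l (nat_lit 8995231)) (T.l (nat_lit 9003499))) (T.n (nat_lit 486) (T.l (nat_lit 604806021857413)) (T.l (nat_lit 41283881402297872352360))))) (T.n (nat_lit 491) (T.n (nat_lit 489) (T.n (nat_lit 488) (T.l (nat_lit 332455158804454685489152014)) (T.l (nat_lit 1296298104546671501386))) (T.n (nat_lit 490) (T.l (nat_lit 28753161659399746415411203)) (T.l (nat_lit 337332657626578230012649616)))) (T.n (nat_lit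 493) (T.n (nat_lit 492) (T.l (nat_lit 32077859854153363269493858)) (T.l (nat_lit 3915875973834171465734))) (T.n (nat_lit 494) (T.l (nat_lit 235547109608701333311984190536)) (T.l (nat_lit 3915749315117144646726)))))) (T.n (nat_lit 503) (T.n (nat_lit 499) (T.n (nat_lit 497) (T.n (nat_lit 496) (T.l (nat_lit 28752318473529540302258183)) (T.l (nat_lit 5598028856812290399))) (T.n (nat_lit 498) (T.l (nat_lit 19315273801731)) (T.l (nat_lit 3509804411011047309319)))) (T.n (nat_lit 501) (T.n (nat_lit 500) (T.l (nat_lit 22270212025575312655674572930113633)) (T.l (nat_lit 41173362496785061717114))) (T.n (nat_lit 502) (T.l (nat_lit 2357806149)) (T.l (nat_lit 75842528415))))) (T.n (nat_lit 507) (T.n (nat_lit 505) (T.n (nat_lit 504) (T.l (nat_lit 44609006765124)) (T.l (nat_lit 365467298507202564))) (T.n (nat_lit 506) (T.l (nat_lit 4944984279182958609)) (T.l (nat_lit 5377978084301472935)))) (T.n (nat_lit 509) (T.n (nat_lit 508) (T.l (nat_lit 40766496597138)) (T.l (nat_lit 2993908075844095460502))) (T.n (nat_lit 510) (T.l (nat_lit 10618647036273442349686864))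 (T.l (nat_lit 331852461976662870029754410)))))))))))
def h1 : T := (T.n (nat_lit 767) (T.n (nat_lit 639) (T.n (nat_lit 575) (T.n (nat_lit 543) (T.n (nat_lit 527) (T.n (nat_lit 519) (T.n (nat_lit 515) (T.n (nat_lit 513) (T.n (nat_lit 512) (T.l (nat_lit 40766497277168)) (T.l (nat_lit 1296222144313479053316))) (T.n (nat_lit 514) (T.l (nat_lit 81345455257)) (T.l (nat_lit 210781401365640105498509295622)))) (T.n (nat_lit 517) (T.n (nat_lit 516) (T.l (nat_lit 40514527013375259541519)) (T.l (nat_lit 1432828115433070617))) (T.n (nat_lit 518) (T.l (nat_lit 337083740905601)) (T.l (nat_lit 91820094817512))))) (T.n (nat_lit 523) (T.n (nat_lit 521) (T.n (nat_lit 520) (T.l (nat_lit 4095689812)) (T.l (nat_lit 76651053218))) (T.n (nat_lit 522) (T.l (nat_lit 4949596203379138941)) (T.l (nat_lit 510138138679777574959234718966078)))) (T.n (nat_lit 525) (T.n (nat_lit 524) (T.l (nat_lit 5490571324134113958)) (T.l (nat_lit 9228727557427966026971))) (T.n (nat_lit 526) (T.l (nat_lit 79600975934)) (T.l (nat_lit 4236567)))))) (T.n (nat_lit 535) (T.n (nat_lit 531)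 (T.n (nat_lit 529) (T.n (nat_lit 528) (T.l (nat_lit 2770878537969563130239496389832)) (T.l (nat_lit 615728861356036))) (T.n (nat_lit 530) (T.l (nat_lit 383421702967182429)) (T.l (nat_lit 182935104777937334016075270295073915014)))) (T.n (nat_lit 533) (T.n (nat_lit 532) (T.l (nat_lit 12050562)) (T.l (nat_lit 1225104533234876735))) (T.n (nat_lit 534) (T.l (nat_lit 1333191614683115652225)) (T.l (nat_lit 10921510702585756881657895))))) (T.n (nat_lit 539) (T.n (nat_lit 537) (T.n (nat_lit 536) (T.l (nat_lit 5058207588364043476)) (T.l (nat_lit 355803687178199044))) (T.n (nat_lit 538) (T.l (nat_lit 2919526059241750807695)) (T.l (nat_lit 692767698658450)))) (T.n (nat_lit 541) (T.n (nat_lit 540) (T.l (nat_lit 184832908035603719257)) (T.l (nat_lit 732885612949009050400843922546719))) (T.n (nat_lit 542) (T.l (nat_lit 2357960710)) (T.l (nat_lit 4940449341116253340))))))) (T.n (nat_lit 559) (T.n (nat_lit 551) (T.n (nat_lit 547) (T.n (nat_lit 545) (T.n (nat_lit 544) (T.l (nat_lit 189754268826281055)) (T.l (nat_lit 4940468033283138630))) (T.n (nat_lit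 546) (T.l (nat_lit 54648477024067619)) (T.l (nat_lit 618551660586164)))) (T.n (nat_lit 549) (T.n (nat_lit 548) (T.l (nat_lit 5125705509552931998)) (T.l (nat_lit 75507188916))) (T.n (nat_lit 550) (T.l (nat_lit 81345201282)) (T.l (nat_lit 201547056129223766054767086655137768532))))) (T.n (nat_lit 555) (T.n (nat_lit 553) (T.n (nat_lit 552) (T.l (nat_lit 24606581245230634148856511361500378)) (T.l (nat_lit 201577113674782348286354148415556788392))) (T.n (nat_lit 554) (T.l (nat_lit 6805815985000965417)) (T.l (nat_lit 775792974389561)))) (T.n (nat_lit 557) (T.n (nat_lit 556) (T.l (nat_lit 51767432840244497211731)) (T.l (nat_lit 2181683278784641434733))) (T.n (nat_lit 558) (T.l (nat_lit 63061464534638725)) (T.l (nat_lit 40699192573463843815610)))))) (T.n (nat_lit 567) (T.n (nat_lit 563) (T.n (nat_lit 561) (T.n (nat_lit 560) (T.l (nat_lit 2983482990142529989397997896955)) (T.l (nat_lit 15032428))) (T.n (nat_lit 562) (T.l (nat_lit 336086215867308252839740548)) (T.l (nat_lit 73695904123)))) (T.n (nat_lit 565) (T.n (nat_lit 564) (T.l (nat_lit 73687418323))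 (T.l (nat_lit 199074447012717606950828288690751718500))) (T.n (nat_lit 566) (T.l (nat_lit 1563358204309316770)) (T.l (nat_lit 5283008783199537738283532351))))) (T.n (nat_lit 571) (T.n (nat_lit 569) (T.n (nat_lit 568) (T.l (nat_lit 5283007086099082957273424966)) (T.l (nat_lit 354539235922600415523530039546978400))) (T.n (nat_lit 570) (T.l (nat_lit 20070760603)) (T.l (nat_lit 10002731)))) (T.n (nat_lit 573) (T.n (nat_lit 572) (T.l (nat_lit 10002662)) (T.l (nat_lit 2773317578682778657820523503726))) (T.n (nat_lit 574) (T.l (nat_lit 182791140003995816078347077268241260599)) (T.l (nat_lit 97845232724)))))))) (T.n (nat_lit 607) (T.n (nat_lit 591) (T.n (nat_lit 583) (T.n (nat_lit 579) (T.n (nat_lit 577) (T.n (nat_lit 576) (T.l (nat_lit 89060689303)) (T.l (nat_lit 12188843785660564348467918660833615186951128182))) (T.n (nat_lit 578) (T.l (nat_lit 7790710157823695921493)) (T.l (nat_lit 677374000996514)))) (T.n (nat_lit 581) (T.n (nat_lit 580) (T.l (nat_lit 290911225947433)) (T.l (nat_lit 107855553856))) (T.n (nat_lit 582) (T.l (nat_lit 59363726460265072140906))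 (T.l (nat_lit 36176233792))))) (T.n (nat_lit 587) (T.n (nat_lit 585) (T.n (nat_lit 584) (T.l (nat_lit 85173182489)) (T.l (nat_lit 725359947428594766))) (T.n (nat_lit 586) (T.l (nat_lit 2770530362131829552149465964565)) (T.l (nat_lit 185949945370192061651495253473346748516)))) (T.n (nat_lit 589) (T.n (nat_lit 588) (T.l (nat_lit 87186317442)) (T.l (nat_lit 92151112072))) (T.n (nat_lit 590) (T.l (nat_lit 4954149340832588874)) (T.l (nat_lit 604805094367611)))))) (T.n (nat_lit 599) (T.n (nat_lit 595) (T.n (nat_lit 593) (T.n (nat_lit 592) (T.l (nat_lit 32077080176775785962061831)) (T.l (nat_lit 152510500863536537672))) (T.n (nat_lit 594) (T.l (nat_lit 9328419915)) (T.l (nat_lit 10330138)))) (T.n (nat_lit 597) (T.n (nat_lit 596) (T.l (nat_lit 152510500863536537635)) (T.l (nat_lit 331286146739913939626008585))) (T.n (nat_lit 598) (T.l (nat_lit 81144530072)) (T.l (nat_lit 22232236966652927946063345439252576))))) (T.n (nat_lit 603) (T.n (nat_lit 601) (T.n (nat_lit 600) (T.l (nat_lit 618554890813617)) (T.l (nat_lit 5481550972936282310))) (T.n (nat_lit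 602) (T.l (nat_lit 5318753986157371526)) (T.l (nat_lit 89469013641657165090390294542)))) (T.n (nat_lit 605) (T.n (nat_lit 604) (T.l (nat_lit 48557541011417532220631)) (T.l (nat_lit 48552199750501590352995))) (T.n (nat_lit 606) (T.l (nat_lit 912797902386892627888027809718286)) (T.l (nat_lit 16711484909))))))) (T.n (nat_lit 623) (T.n (nat_lit 615) (T.n (nat_lit 611) (T.n (nat_lit 609) (T.n (nat_lit 608) (T.l (nat_lit 11737272355408844202146)) (T.l (nat_lit 5067201672993292502))) (T.n (nat_lit 610) (T.l (nat_lit 1581440775024214266)) (T.l (nat_lit 5238340114476900602)))) (T.n (nat_lit 613) (T.n (nat_lit 612) (T.l (nat_lit 41136992076086791282850)) (T.l (nat_lit 22620946574489375432954))) (T.n (nat_lit 614) (T.l (nat_lit 9609805254402056)) (T.l (nat_lit 10291086))))) (T.n (nat_lit 619) (T.n (nat_lit 617) (T.n (nat_lit 616) (T.l (nat_lit 9987979)) (T.l (nat_lit 1441827))) (T.n (nat_lit 618) (T.l (nat_lit 509569)) (T.l (nat_lit 10977945)))) (T.n (nat_lit 621) (T.n (nat_lit 620) (T.l (nat_lit 9429961)) (T.l (nat_lit 9863547))) (T.n (nat_lit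 622) (T.l (nat_lit 10184493)) (T.l (nat_lit 9742049)))))) (T.n (nat_lit 631) (T.n (nat_lit 627) (T.n (nat_lit 625) (T.n (nat_lit 624) (T.l (nat_lit 9528972)) (T.l (nat_lit 1738408))) (T.n (nat_lit 626) (T.l (nat_lit 618554881885302)) (T.l (nat_lit 5066740425659867198)))) (T.n (nat_lit 629) (T.n (nat_lit 628) (T.l (nat_lit 19275593500919890063925511074259843138380888768768)) (T.l (nat_lit 75507187737))) (T.n (nat_lit 630) (T.l (nat_lit 5710606736089859170)) (T.l (nat_lit 1517843458176014256661039679571548323332589))))) (T.n (nat_lit 635) (T.n (nat_lit 633) (T.n (nat_lit 632) (T.l (nat_lit 98327167517)) (T.l (nat_lit 41468285219232320339971))) (T.n (nat_lit 634) (T.l (nat_lit 434866078615207308276460183517419996793315387)) (T.l (nat_lit 436395802189905126491355548981928955171161157)))) (T.n (nat_lit 637) (T.n (nat_lit 636) (T.l (nat_lit 279832387139953822)) (T.l (nat_lit 3323394542680727832888666227980502159))) (T.n (nat_lit 638) (T.l (nat_lit 1958461886390046209316939443963466789149583588350151358095366)) (T.l (nat_lit 239911129423942573321732282539697707319995209015028737120)))))))))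 (T.n (nat_lit 703) (T.n (nat_lit 671) (T.n (nat_lit 655) (T.n (nat_lit 647) (T.n (nat_lit 643) (T.n (nat_lit 641) (T.n (nat_lit 640) (T.l (nat_lit 5509446648986)) (T.l (nat_lit 436395802214872780475320979830229404370396228))) (T.n (nat_lit 642) (T.l (nat_lit 45084383786968151)) (T.l (nat_lit 24779057266658918039113737293)))) (T.n (nat_lit 645) (T.n (nat_lit 644) (T.l (nat_lit 202990037128470153872821757059077)) (T.l (nat_lit 3027184584649607789126739))) (T.n (nat_lit 646) (T.l (nat_lit 369331209859756023997)) (T.l (nat_lit 25108825467195553543770259500))))) (T.n (nat_lit 651) (T.n (nat_lit 649) (T.n (nat_lit 648) (T.l (nat_lit 680576239)) (T.l (nat_lit 4963078940957647992))) (T.n (nat_lit 650) (T.l (nat_lit 4962976210574467160)) (T.l (nat_lit 919339605470389355)))) (T.n (nat_lit 653) (T.n (nat_lit 652) (T.l (nat_lit 374614032763349730389)) (T.l (nat_lit 2878196485255311041613))) (T.n (nat_lit 654) (T.l (nat_lit 7531644413337013510221)) (T.l (nat_lit 45195617485041029965328)))))) (T.n (nat_lit 663) (T.n (nat_lit 659) (T.n (nat_lit 657)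 (T.n (nat_lit 656) (T.l (nat_lit 5305260779930017815)) (T.l (nat_lit 24832245907243021340244647953))) (T.n (nat_lit 658) (T.l (nat_lit 1918047)) (T.l (nat_lit 43682985095609590923420)))) (T.n (nat_lit 661) (T.n (nat_lit 660) (T.l (nat_lit 680739974)) (T.l (nat_lit 105007932925022))) (T.n (nat_lit 662) (T.l (nat_lit 24196944702332104721392777835782256)) (T.l (nat_lit 85778223490384))))) (T.n (nat_lit 667) (T.n (nat_lit 665) (T.n (nat_lit 664) (T.l (nat_lit 5576614216930)) (T.l (nat_lit 702695206822364375))) (T.n (nat_lit 666) (T.l (nat_lit 5517039296382476420)) (T.l (nat_lit 374240251588076527943)))) (T.n (nat_lit 669) (T.n (nat_lit 668) (T.l (nat_lit 25138109969177593420090222077)) (T.l (nat_lit 205931372693708854879239101005956))) (T.n (nat_lit 670) (T.l (nat_lit 5332268097936646272)) (T.l (nat_lit 205931396867502844674433350426970))))))) (T.n (nat_lit 687) (T.n (nat_lit 679) (T.n (nat_lit 675) (T.n (nat_lit 673) (T.n (nat_lit 672) (T.l (nat_lit 927432562223622396010778725639291349782319743253)) (T.l (nat_lit 45042052187366485))) (T.n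 (nat_lit 674) (T.l (nat_lit 27273407774670562360449434707)) (T.l (nat_lit 3022720954482128841973779)))) (T.n (nat_lit 677) (T.n (nat_lit 676) (T.l (nat_lit 337331218884709234686173251)) (T.l (nat_lit 368984491513931743409))) (T.n (nat_lit 678) (T.l (nat_lit 472896424280425253485280330835)) (T.l (nat_lit 37457349502072))))) (T.n (nat_lit 683) (T.n (nat_lit 681) (T.n (nat_lit 680) (T.l (nat_lit 1329451419563808886370423699347701777)) (T.l (nat_lit 368984491513941345358))) (T.n (nat_lit 682) (T.l (nat_lit 75305346194)) (T.l (nat_lit 1329451419208388052004045388243361808)))) (T.n (nat_lit 685) (T.n (nat_lit 684) (T.l (nat_lit 24762130054155204986065699045)) (T.l (nat_lit 165029792724596550421126925377550))) (T.n (nat_lit 686) (T.l (nat_lit 547317000)) (T.l (nat_lit 24762130059059017006652818519)))))) (T.n (nat_lit 695) (T.n (nat_lit 691) (T.n (nat_lit 689) (T.n (nat_lit 688) (T.l (nat_lit 300129499981158154276)) (T.l (nat_lit 1663826924347860623764786133950866815))) (T.n (nat_lit 690) (T.l (nat_lit 11092765)) (T.l (nat_lit 13117132)))) (T.n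 (nat_lit 693) (T.n (nat_lit 692) (T.l (nat_lit 26124711998879764803861674024371402)) (T.l (nat_lit 26124132658998310587277173770151114))) (T.n (nat_lit 694) (T.l (nat_lit 1505431788420876925875868907981080929959951)) (T.l (nat_lit 638276441292822))))) (T.n (nat_lit 699) (T.n (nat_lit 697) (T.n (nat_lit 696) (T.l (nat_lit 12332497210743823776775118093479043800824823853)) (T.l (nat_lit 183768528859970368748924711598568383599))) (T.n (nat_lit 698) (T.l (nat_lit 72576316729579040039772166)) (T.l (nat_lit 649892171596884)))) (T.n (nat_lit 701) (T.n (nat_lit 700) (T.l (nat_lit 5404534589653116269)) (T.l (nat_lit 604280905236891))) (T.n (nat_lit 702) (T.l (nat_lit 697165678626103)) (T.l (nat_lit 672539918)))))))) (T.n (nat_lit 735) (T.n (nat_lit 719) (T.n (nat_lit 711) (T.n (nat_lit 707) (T.n (nat_lit 705) (T.n (nat_lit 704) (T.l (nat_lit 405850894218236362884)) (T.l (nat_lit 3667623545331893996806387))) (T.n (nat_lit 706) (T.l (nat_lit 61518349018087861758547595152543851636850211165895974940)) (T.l (nat_lit 2418589577202134730556495)))) (T.n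 (nat_lit 709) (T.n (nat_lit 708) (T.l (nat_lit 681436386)) (T.l (nat_lit 46523503721375659819062))) (T.n (nat_lit 710) (T.l (nat_lit 925772354655614859167181706798374818766225777866)) (T.l (nat_lit 90079763294199941))))) (T.n (nat_lit 715) (T.n (nat_lit 713) (T.n (nat_lit 712) (T.l (nat_lit 90694866825184335)) (T.l (nat_lit 90079763285214315))) (T.n (nat_lit 714) (T.l (nat_lit 386252394639180669900301448)) (T.l (nat_lit 89230391635678188602647953274391410167768143)))) (T.n (nat_lit 717) (T.n (nat_lit 716) (T.l (nat_lit 2418589702655787741184015)) (T.l (nat_lit 75373135054))) (T.n (nat_lit 718) (T.l (nat_lit 3324919902425125178647778)) (T.l (nat_lit 27237743835537557082988110001)))))) (T.n (nat_lit 727) (T.n (nat_lit 723) (T.n (nat_lit 721) (T.n (nat_lit 720) (T.l (nat_lit 13614477047944754265602066005597387916549)) (T.l (nat_lit 89230205732402546416028409028849646033978463))) (T.n (nat_lit 722) (T.l (nat_lit 681435457)) (T.l (nat_lit 681435360)))) (T.n (nat_lit 725) (T.n (nat_lit 724) (T.l (nat_lit 45641828457170159)) (T.l (nat_lit 40656710115509400264782)))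 (T.n (nat_lit 726) (T.l (nat_lit 738238474)) (T.l (nat_lit 186092327970057998625935904726524945489))))) (T.n (nat_lit 731) (T.n (nat_lit 729) (T.n (nat_lit 728) (T.l (nat_lit 41800412250844561793115)) (T.l (nat_lit 5004178134582534192))) (T.n (nat_lit 730) (T.l (nat_lit 19275593500953809740277439979240022210446704230656)) (T.l (nat_lit 76649046183)))) (T.n (nat_lit 733) (T.n (nat_lit 732) (T.l (nat_lit 926429960061816)) (T.l (nat_lit 48262834545418830946872))) (T.n (nat_lit 734) (T.l (nat_lit 49882000989243604836744)) (T.l (nat_lit 743355030519881))))))) (T.n (nat_lit 751) (T.n (nat_lit 743) (T.n (nat_lit 739) (T.n (nat_lit 737) (T.n (nat_lit 736) (T.l (nat_lit 743355030519963)) (T.l (nat_lit 6089564414389338247))) (T.n (nat_lit 738) (T.l (nat_lit 696005096457688)) (T.l (nat_lit 16825565534018976654656)))) (T.n (nat_lit 741) (T.n (nat_lit 740) (T.l (nat_lit 73687270701)) (T.l (nat_lit 64829186906380464793144))) (T.n (nat_lit 742) (T.l (nat_lit 468514950147742694465635747)) (T.l (nat_lit 4945094243701564944))))) (T.n (nat_lit 747) (T.n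 (nat_lit 745) (T.n (nat_lit 744) (T.l (nat_lit 216173332014236745)) (T.l (nat_lit 263177468324099833951))) (T.n (nat_lit 746) (T.l (nat_lit 40329635587282951659605)) (T.l (nat_lit 4543183532041284)))) (T.n (nat_lit 749) (T.n (nat_lit 748) (T.l (nat_lit 1170790665659664846627684046186831138615074888)) (T.l (nat_lit 76370093214))) (T.n (nat_lit 750) (T.l (nat_lit 101009948774)) (T.l (nat_lit 13834905576818)))))) (T.n (nat_lit 759) (T.n (nat_lit 755) (T.n (nat_lit 753) (T.n (nat_lit 752) (T.l (nat_lit 56715859091940)) (T.l (nat_lit 100696324202907))) (T.n (nat_lit 754) (T.l (nat_lit 4950201562051618067)) (T.l (nat_lit 12254359068559023908597404179403174300641314450)))) (T.n (nat_lit 757) (T.n (nat_lit 756) (T.l (nat_lit 726321790060110)) (T.l (nat_lit 109734101142))) (T.n (nat_lit 758) (T.l (nat_lit 926436195934606)) (T.l (nat_lit 507778630401966833929443351381480))))) (T.n (nat_lit 763) (T.n (nat_lit 761) (T.n (nat_lit 760) (T.l (nat_lit 1678319866)) (T.l (nat_lit 603647128217048))) (T.n (nat_lit 762) (T.l (nat_lit 768096654655843)) (T.l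 (nat_lit 26796522347582173907482565338465564)))) (T.n (nat_lit 765) (T.n (nat_lit 764) (T.l (nat_lit 15180273)) (T.l (nat_lit 7602790244566992619029775))) (T.n (nat_lit 766) (T.l (nat_lit 62336796510464000214040282444)) (T.l (nat_lit 1729632977374471488)))))))))) (T.n (nat_lit 895) (T.n (nat_lit 831) (T.n (nat_lit 799) (T.n (nat_lit 783) (T.n (nat_lit 775) (T.n (nat_lit 771) (T.n (nat_lit 769) (T.n (nat_lit 768) (T.l (nat_lit 5125110135078438360)) (T.l (nat_lit 76370092339))) (T.n (nat_lit 770) (T.l (nat_lit 76370092453)) (T.l (nat_lit 5125110124746391924)))) (T.n (nat_lit 773) (T.n (nat_lit 772) (T.l (nat_lit 751006113825076)) (T.l (nat_lit 2342659144078819541))) (T.n (nat_lit 774) (T.l (nat_lit 9249952474274169721352787923199397)) (T.l (nat_lit 24307229027))))) (T.n (nat_lit 779) (T.n (nat_lit 777) (T.n (nat_lit 776) (T.l (nat_lit 625623794524535)) (T.l (nat_lit 1129144632094364799044376913275))) (T.n (nat_lit 778) (T.l (nat_lit 6976115976312497476)) (T.l (nat_lit 6687885600160998762)))) (T.n (nat_lit 781) (T.n (nat_lit 780) (T.l (nat_lit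 1723392473574299740358430035795481358574936)) (T.l (nat_lit 2694656823979034632198))) (T.n (nat_lit 782) (T.l (nat_lit 3134471737951612343559066674493)) (T.l (nat_lit 785640317863142)))))) (T.n (nat_lit 791) (T.n (nat_lit 787) (T.n (nat_lit 785) (T.n (nat_lit 784) (T.l (nat_lit 205986)) (T.l (nat_lit 109333145008))) (T.n (nat_lit 786) (T.l (nat_lit 7608213316438458622690636)) (T.l (nat_lit 464219392313778574)))) (T.n (nat_lit 789) (T.n (nat_lit 788) (T.l (nat_lit 928736977176647935407)) (T.l (nat_lit 34287966945159830651275718541586855101772))) (T.n (nat_lit 790) (T.l (nat_lit 77205756754788076638872868833999250552274355482706202)) (T.l (nat_lit 50365349621318177644887))))) (T.n (nat_lit 795) (T.n (nat_lit 793) (T.n (nat_lit 792) (T.l (nat_lit 6152634060360524161)) (T.l (nat_lit 604291509708666))) (T.n (nat_lit 794) (T.l (nat_lit 4760990)) (T.l (nat_lit 412896282398389025520156885)))) (T.n (nat_lit 797) (T.n (nat_lit 796) (T.l (nat_lit 50402378222459597865221)) (T.l (nat_lit 56731228455337))) (T.n (nat_lit 798) (T.l (nat_lit 101011824795))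 (T.l (nat_lit 109333399113))))))) (T.n (nat_lit 815) (T.n (nat_lit 807) (T.n (nat_lit 803) (T.n (nat_lit 801) (T.n (nat_lit 800) (T.l (nat_lit 2207015111456327070)) (T.l (nat_lit 11453854))) (T.n (nat_lit 802) (T.l (nat_lit 255092734016879753843434037673)) (T.l (nat_lit 9519129)))) (T.n (nat_lit 805) (T.n (nat_lit 804) (T.l (nat_lit 9430317)) (T.l (nat_lit 84969250834))) (T.n (nat_lit 806) (T.l (nat_lit 331856962843185816635883535)) (T.l (nat_lit 40952870730741382800551))))) (T.n (nat_lit 811) (T.n (nat_lit 809) (T.n (nat_lit 808) (T.l (nat_lit 1099484690814985359)) (T.l (nat_lit 41026657707036221129943))) (T.n (nat_lit 810) (T.l (nat_lit 4950103060455203921)) (T.l (nat_lit 332195792660255967015608348)))) (T.n (nat_lit 813) (T.n (nat_lit 812) (T.l (nat_lit 890443365898715152403)) (T.l (nat_lit 63697540265418944))) (T.n (nat_lit 814) (T.l (nat_lit 63749697063789650)) (T.l (nat_lit 3399150973660814147639)))))) (T.n (nat_lit 823) (T.n (nat_lit 819) (T.n (nat_lit 817) (T.n (nat_lit 816) (T.l (nat_lit 1085968471425441898)) (T.l (nat_lit 616994333824296009)))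 (T.n (nat_lit 818) (T.l (nat_lit 75316690003013)) (T.l (nat_lit 3394818506966496724035)))) (T.n (nat_lit 821) (T.n (nat_lit 820) (T.l (nat_lit 75306272080)) (T.l (nat_lit 5233815609707896834))) (T.n (nat_lit 822) (T.l (nat_lit 5059357351507145572359)) (T.l (nat_lit 42875417474656099288134))))) (T.n (nat_lit 827) (T.n (nat_lit 825) (T.n (nat_lit 824) (T.l (nat_lit 625701439390804)) (T.l (nat_lit 76379570185))) (T.n (nat_lit 826) (T.l (nat_lit 613065253208314)) (T.l (nat_lit 40515035468310857557320)))) (T.n (nat_lit 829) (T.n (nat_lit 828) (T.l (nat_lit 295219969994851411090)) (T.l (nat_lit 611334103303262))) (T.n (nat_lit 830) (T.l (nat_lit 4533767061539737013813264)) (T.l (nat_lit 40558858276168941)))))))) (T.n (nat_lit 863) (T.n (nat_lit 847) (T.n (nat_lit 839) (T.n (nat_lit 835) (T.n (nat_lit 833) (T.n (nat_lit 832) (T.l (nat_lit 74838081598)) (T.l (nat_lit 337030205459845047793894497))) (T.n (nat_lit 834) (T.l (nat_lit 43645060132424281227279)) (T.l (nat_lit 153825063585211535)))) (T.n (nat_lit 837) (T.n (nat_lit 836) (T.l (nat_lit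 3212847)) (T.l (nat_lit 1522722788000508099905899177205))) (T.n (nat_lit 838) (T.l (nat_lit 5021612079000019194)) (T.l (nat_lit 41137046054408523915326))))) (T.n (nat_lit 843) (T.n (nat_lit 841) (T.n (nat_lit 840) (T.l (nat_lit 347540376019370)) (T.l (nat_lit 221362477132227653))) (T.n (nat_lit 842) (T.l (nat_lit 40292602486454752616529)) (T.l (nat_lit 110734513758593802372)))) (T.n (nat_lit 845) (T.n (nat_lit 844) (T.l (nat_lit 4504772691100817)) (T.l (nat_lit 268484643))) (T.n (nat_lit 846) (T.l (nat_lit 4505799196484680)) (T.l (nat_lit 652084759299230)))))) (T.n (nat_lit 855) (T.n (nat_lit 851) (T.n (nat_lit 849) (T.n (nat_lit 848) (T.l (nat_lit 619651853190300)) (T.l (nat_lit 1210775718845808635830279))) (T.n (nat_lit 850) (T.l (nat_lit 90771282891260037)) (T.l (nat_lit 550024265731)))) (T.n (nat_lit 853) (T.n (nat_lit 852) (T.l (nat_lit 854913988882823235409870877672522)) (T.l (nat_lit 221362553778807912))) (T.n (nat_lit 854) (T.l (nat_lit 2477129297016011221164597251)) (T.l (nat_lit 2199435616348))))) (T.n (nat_lit 859) (T.n (nat_lit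 857) (T.n (nat_lit 856) (T.l (nat_lit 18041886769964343)) (T.l (nat_lit 14810896437951583348278398))) (T.n (nat_lit 858) (T.l (nat_lit 82822243471)) (T.l (nat_lit 4914037972784284833)))) (T.n (nat_lit 861) (T.n (nat_lit 860) (T.l (nat_lit 4914033098926138548)) (T.l (nat_lit 139331))) (T.n (nat_lit 862) (T.l (nat_lit 40361629158962835956951)) (T.l (nat_lit 40288666341399804879962))))))) (T.n (nat_lit 879) (T.n (nat_lit 871) (T.n (nat_lit 867) (T.n (nat_lit 865) (T.n (nat_lit 864) (T.l (nat_lit 977284491091436880)) (T.l (nat_lit 414334464530392304))) (T.n (nat_lit 866) (T.l (nat_lit 1486354874115207409766669921487642842005599)) (T.l (nat_lit 22148413570451145721414962896077996)))) (T.n (nat_lit 869) (T.n (nat_lit 868) (T.l (nat_lit 22148394101309015153959038319911018)) (T.l (nat_lit 181439803969141526819299310187798224930))) (T.n (nat_lit 870) (T.l (nat_lit 600334893818951)) (T.l (nat_lit 40287730204628423017612))))) (T.n (nat_lit 875) (T.n (nat_lit 873) (T.n (nat_lit 872) (T.l (nat_lit 4917935814719610957)) (T.l (nat_lit 77167097855238153)))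 (T.n (nat_lit 874) (T.l (nat_lit 1077671701933789288907007760613457)) (T.l (nat_lit 5203329072011838661853)))) (T.n (nat_lit 877) (T.n (nat_lit 876) (T.l (nat_lit 12023226491)) (T.l (nat_lit 806236159307195531))) (T.n (nat_lit 878) (T.l (nat_lit 2048073)) (T.l (nat_lit 2246502)))))) (T.n (nat_lit 887) (T.n (nat_lit 883) (T.n (nat_lit 881) (T.n (nat_lit 880) (T.l (nat_lit 40656710112212745134158)) (T.l (nat_lit 274811461318230182))) (T.n (nat_lit 882) (T.l (nat_lit 87386611764)) (T.l (nat_lit 1185388120408437308782737449143050246)))) (T.n (nat_lit 885) (T.n (nat_lit 884) (T.l (nat_lit 225830303505238141606150598058005)) (T.l (nat_lit 2728423171394190443902669389931))) (T.n (nat_lit 886) (T.l (nat_lit 22313352079865754633730395612439713)) (T.l (nat_lit 40587751047488553902089))))) (T.n (nat_lit 891) (T.n (nat_lit 889) (T.n (nat_lit 888) (T.l (nat_lit 2770510754981466804093103128645)) (T.l (nat_lit 4950083822836343034))) (T.n (nat_lit 890) (T.l (nat_lit 5927434233153511458)) (T.l (nat_lit 41326327220194276114453)))) (T.n (nat_lit 893) (T.n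 (nat_lit 892) (T.l (nat_lit 2772994191953980807711645220940)) (T.l (nat_lit 5305247034146643991))) (T.n (nat_lit 894) (T.l (nat_lit 19810405577943658769722507392)) (T.l (nat_lit 5104482866955373))))))))) (T.n (nat_lit 959) (T.n (nat_lit 927) (T.n (nat_lit 911) (T.n (nat_lit 903) (T.n (nat_lit 899) (T.n (nat_lit 897) (T.n (nat_lit 896) (T.l (nat_lit 11557565629525)) (T.l (nat_lit 40533019752154349))) (T.n (nat_lit 898) (T.l (nat_lit 22283223049281836049804869639)) (T.l (nat_lit 4926938542234141790)))) (T.n (nat_lit 901) (T.n (nat_lit 900) (T.l (nat_lit 10)) (T.l (nat_lit 29))) (T.n (nat_lit 902) (T.l (nat_lit 30)) (T.l (nat_lit 26))))) (T.n (nat_lit 907) (T.n (nat_lit 905) (T.n (nat_lit 904) (T.l (nat_lit 75373405495)) (T.l (nat_lit 1621108353660788339109733588313281326964763))) (T.n (nat_lit 906) (T.l (nat_lit 41579191442634122954039)) (T.l (nat_lit 1808010631944015414454)))) (T.n (nat_lit 909) (T.n (nat_lit 908) (T.l (nat_lit 27415493850638431024704110283837573203068)) (T.l (nat_lit 743098449887380643864))) (T.n (nat_lit 910) (T.l (nat_lit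 737932841461913608208)) (T.l (nat_lit 664739882910926)))))) (T.n (nat_lit 919) (T.n (nat_lit 915) (T.n (nat_lit 913) (T.n (nat_lit 912) (T.l (nat_lit 11001232465935)) (T.l (nat_lit 1097733))) (T.n (nat_lit 914) (T.l (nat_lit 90679473670389818)) (T.l (nat_lit 47150247166269275931860)))) (T.n (nat_lit 917) (T.n (nat_lit 916) (T.l (nat_lit 302974301793456476766221)) (T.l (nat_lit 221586709277826015239))) (T.n (nat_lit 918) (T.l (nat_lit 41136991474654812283445)) (T.l (nat_lit 5657204570737828090))))) (T.n (nat_lit 923) (T.n (nat_lit 921) (T.n (nat_lit 920) (T.l (nat_lit 118224118514452730823270562)) (T.l (nat_lit 51132659449891))) (T.n (nat_lit 922) (T.l (nat_lit 343003767312722051170308)) (T.l (nat_lit 2785702118450874265527978976436)))) (T.n (nat_lit 925) (T.n (nat_lit 924) (T.l (nat_lit 82084585636)) (T.l (nat_lit 613054112055462))) (T.n (nat_lit 926) (T.l (nat_lit 45863731476674949472274)) (T.l (nat_lit 73686622299))))))) (T.n (nat_lit 943) (T.n (nat_lit 935) (T.n (nat_lit 931) (T.n (nat_lit 929) (T.n (nat_lit 928) (T.l (nat_lit 4950062929691591764))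 (T.l (nat_lit 9059975889355849))) (T.n (nat_lit 930) (T.l (nat_lit 74219322486007923810)) (T.l (nat_lit 73899566912462882128)))) (T.n (nat_lit 933) (T.n (nat_lit 932) (T.l (nat_lit 1881789188807282623634)) (T.l (nat_lit 1101189357575))) (T.n (nat_lit 934) (T.l (nat_lit 40329708262259612958729)) (T.l (nat_lit 37217748420571776069))))) (T.n (nat_lit 939) (T.n (nat_lit 937) (T.n (nat_lit 936) (T.l (nat_lit 4504772766384176)) (T.l (nat_lit 15115446980898736529899526))) (T.n (nat_lit 938) (T.l (nat_lit 67584072)) (T.l (nat_lit 3929562352708782892049575)))) (T.n (nat_lit 941) (T.n (nat_lit 940) (T.l (nat_lit 553657073679)) (T.l (nat_lit 594555198619718888816273825847))) (T.n (nat_lit 942) (T.l (nat_lit 78588116640153589602428311)) (T.l (nat_lit 5035024933358141442)))))) (T.n (nat_lit 951) (T.n (nat_lit 947) (T.n (nat_lit 945) (T.n (nat_lit 944) (T.l (nat_lit 4917963852661022826)) (T.l (nat_lit 675729495900169))) (T.n (nat_lit 946) (T.l (nat_lit 13300287120266467252052072)) (T.l (nat_lit 601511579165763)))) (T.n (nat_lit 949) (T.n (nat_lit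 948) (T.l (nat_lit 40366597243978967302199)) (T.l (nat_lit 13300287120266472822113383))) (T.n (nat_lit 950) (T.l (nat_lit 13300287120266467252077689)) (T.l (nat_lit 108955952089222899652717920279))))) (T.n (nat_lit 955) (T.n (nat_lit 953) (T.n (nat_lit 952) (T.l (nat_lit 198189722303546539)) (T.l (nat_lit 18027667341673547))) (T.n (nat_lit 954) (T.l (nat_lit 7697932681274)) (T.l (nat_lit 386294005688466848715276312)))) (T.n (nat_lit 957) (T.n (nat_lit 956) (T.l (nat_lit 9905636160746827340710248540)) (T.l (nat_lit 147821653943358039121))) (T.n (nat_lit 958) (T.l (nat_lit 9904427271838115948589555758)) (T.l (nat_lit 7429796291168629050123116586)))))))) (T.n (nat_lit 991) (T.n (nat_lit 975) (T.n (nat_lit 967) (T.n (nat_lit 963) (T.n (nat_lit 961) (T.n (nat_lit 960) (T.l (nat_lit 664918249221870809686032026974233690)) (T.l (nat_lit 108955951204665773669066007627))) (T.n (nat_lit 962) (T.l (nat_lit 628920786429001)) (T.l (nat_lit 77161527627276307)))) (T.n (nat_lit 965) (T.n (nat_lit 964) (T.l (nat_lit 205199653021025409790021434609267941432))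 (T.l (nat_lit 152487380883119064186))) (T.n (nat_lit 966) (T.l (nat_lit 40250805179116237415582)) (T.l (nat_lit 1208962992965326558044162))))) (T.n (nat_lit 971) (T.n (nat_lit 969) (T.n (nat_lit 968) (T.l (nat_lit 41812041815321337928)) (T.l (nat_lit 18014948668735490))) (T.n (nat_lit 970) (T.l (nat_lit 221356)) (T.l (nat_lit 516608534480286712921)))) (T.n (nat_lit 973) (T.n (nat_lit 972) (T.l (nat_lit 89505543839446668519304577089)) (T.l (nat_lit 34162917753994))) (T.n (nat_lit 974) (T.l (nat_lit 8200536976577807668789252)) (T.l (nat_lit 67178798912125400422721699912)))))) (T.n (nat_lit 983) (T.n (nat_lit 979) (T.n (nat_lit 977) (T.n (nat_lit 976) (T.l (nat_lit 2398283914958937055276)) (T.l (nat_lit 8164123117287099811266566))) (T.n (nat_lit 978) (T.l (nat_lit 40398432585099286798358)) (T.l (nat_lit 330078738818048179286196231)))) (T.n (nat_lit 981) (T.n (nat_lit 980) (T.l (nat_lit 202683502637563946)) (T.l (nat_lit 5435858019067921524))) (T.n (nat_lit 982) (T.l (nat_lit 202683502637563953)) (T.l (nat_lit 90272294265))))) (T.n (nat_lit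 987) (T.n (nat_lit 985) (T.n (nat_lit 984) (T.l (nat_lit 3352822230740732229118157219077)) (T.l (nat_lit 40207990929))) (T.n (nat_lit 986) (T.l (nat_lit 334357508817176)) (T.l (nat_lit 5895429656345404762)))) (T.n (nat_lit 989) (T.n (nat_lit 988) (T.l (nat_lit 5949995720519157154)) (T.l (nat_lit 23367050828))) (T.n (nat_lit 990) (T.l (nat_lit 14065673)) (T.l (nat_lit 610853469782148))))))) (T.n (nat_lit 1007) (T.n (nat_lit 999) (T.n (nat_lit 995) (T.n (nat_lit 993) (T.n (nat_lit 992) (T.l (nat_lit 610852202561624)) (T.l (nat_lit 40993682403348764598373))) (T.n (nat_lit 994) (T.l (nat_lit 5495158540584804560)) (T.l (nat_lit 45016338072962201198800)))) (T.n (nat_lit 997) (T.n (nat_lit 996) (T.l (nat_lit 569765991629782323513131020)) (T.l (nat_lit 723561808159842))) (T.n (nat_lit 998) (T.l (nat_lit 2805423079471144633444)) (T.l (nat_lit 22475630869970201362691708220794532))))) (T.n (nat_lit 1003) (T.n (nat_lit 1001) (T.n (nat_lit 1000) (T.l (nat_lit 41364734528120941994610)) (T.l (nat_lit 8465432572162763609105534))) (T.n (nat_lit 1002)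 (T.l (nat_lit 27023796863533065)) (T.l (nat_lit 342458841805890673)))) (T.n (nat_lit 1005) (T.n (nat_lit 1004) (T.l (nat_lit 5756323877727102104)) (T.l (nat_lit 221378985087081653316))) (T.n (nat_lit 1006) (T.l (nat_lit 3373764542801)) (T.l (nat_lit 3298803326978)))))) (T.n (nat_lit 1015) (T.n (nat_lit 1011) (T.n (nat_lit 1009) (T.n (nat_lit 1008) (T.l (nat_lit 221378943838963123299)) (T.l (nat_lit 221379544172311887985))) (T.n (nat_lit 1010) (T.l (nat_lit 27637879131873372)) (T.l (nat_lit 226743393527555448917)))) (T.n (nat_lit 1013) (T.n (nat_lit 1012) (T.l (nat_lit 647147418968095)) (T.l (nat_lit 210018086895148926740951863366664365133))) (T.n (nat_lit 1014) (T.l (nat_lit 10276174908101873303934296065)) (T.l (nat_lit 694977124205780))))) (T.n (nat_lit 1019) (T.n (nat_lit 1017) (T.n (nat_lit 1016) (T.l (nat_lit 4944960168770446481)) (T.l (nat_lit 12050600))) (T.n (nat_lit 1018) (T.l (nat_lit 100399327934056858300200087962687447829465757246867)) (T.l (nat_lit 182459989370226050030694184048121864529)))) (T.n (nat_lit 1021) (T.n (nat_lit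 1020) (T.l (nat_lit 44642134575854591270928)) (T.l (nat_lit 790633016132169))) (T.n (nat_lit 1022) (T.l (nat_lit 491495992274452502)) (T.l (nat_lit 7444510181125628055)))))))))))
def h2 : T := (T.n (nat_lit 1279) (T.n (nat_lit 1151) (T.n (nat_lit 1087) (T.n (nat_lit 1055) (T.n (nat_lit 1039) (T.n (nat_lit 1031) (T.n (nat_lit 1027) (T.n (nat_lit 1025) (T.n (nat_lit 1024) (T.l (nat_lit 1209262775054724612768890)) (T.l (nat_lit 40510275095272718673010))) (T.n (nat_lit 1026) (T.l (nat_lit 205224884306390403745488871441679040514)) (T.l (nat_lit 22412061214871320010956802)))) (T.n (nat_lit 1029) (T.n (nat_lit 1028) (T.l (nat_lit 266398478102438981)) (T.l (nat_lit 5431372491666588771))) (T.n (nat_lit 1030) (T.l (nat_lit 5431372491666654306)) (T.l (nat_lit 106727396278287))))) (T.n (nat_lit 1035) (T.n (nat_lit 1033) (T.n (nat_lit 1032) (T.l (nat_lit 491503689199658063)) (T.l (nat_lit 59930774815832))) (T.n (nat_lit 1034) (T.l (nat_lit 7323861102)) (T.l (nat_lit 44757408766899398410539)))) (T.n (nat_lit 1037) (T.n (nat_lit 1036) (T.l (nat_lit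 92368440870118)) (T.l (nat_lit 92368440976565))) (T.n (nat_lit 1038) (T.l (nat_lit 92368441189597)) (T.l (nat_lit 490952833404379158)))))) (T.n (nat_lit 1047) (T.n (nat_lit 1043) (T.n (nat_lit 1041) (T.n (nat_lit 1040) (T.l (nat_lit 837730006380700760)) (T.l (nat_lit 59923921485837))) (T.n (nat_lit 1042) (T.l (nat_lit 59997404913686)) (T.l (nat_lit 59932510584942)))) (T.n (nat_lit 1045) (T.n (nat_lit 1044) (T.l (nat_lit 4021426347929260703759)) (T.l (nat_lit 491499841034813573))) (T.n (nat_lit 1046) (T.l (nat_lit 59924869234704)) (T.l (nat_lit 667140226510667832))))) (T.n (nat_lit 1051) (T.n (nat_lit 1049) (T.n (nat_lit 1048) (T.l (nat_lit 366764218202815459938576606294)) (T.l (nat_lit 44770769352216903280115914))) (T.n (nat_lit 1050) (T.l (nat_lit 44731952525313809683447809)) (T.l (nat_lit 44731952525313809683448961)))) (T.n (nat_lit 1053) (T.n (nat_lit 1052) (T.l (nat_lit 362980051144882887384416263)) (T.l (nat_lit 5465212735581506389072))) (T.n (nat_lit 1054) (T.l (nat_lit 4026367296986465633366)) (T.l (nat_lit 110767312681774641220851932672377064588054364445312136)))))))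 (T.n (nat_lit 1071) (T.n (nat_lit 1063) (T.n (nat_lit 1059) (T.n (nat_lit 1057) (T.n (nat_lit 1056) (T.l (nat_lit 18133143735443199825980085471955189805)) (T.l (nat_lit 2398334097771488665636))) (T.n (nat_lit 1058) (T.l (nat_lit 182458974907651633682576467395459727461)) (T.l (nat_lit 167344071901090277327519169831880413297304763)))) (T.n (nat_lit 1061) (T.n (nat_lit 1060) (T.l (nat_lit 45563466872560650690567)) (T.l (nat_lit 58673411369457480115486740))) (T.n (nat_lit 1062) (T.l (nat_lit 167344071880625326038341112395528184153522182)) (T.l (nat_lit 19648217782532016019956803))))) (T.n (nat_lit 1067) (T.n (nat_lit 1065) (T.n (nat_lit 1064) (T.l (nat_lit 31421184623762)) (T.l (nat_lit 1505418662558233836930492563632629389205508))) (T.n (nat_lit 1066) (T.l (nat_lit 6862855931797694448777)) (T.l (nat_lit 491495992273798221)))) (T.n (nat_lit 1069) (T.n (nat_lit 1068) (T.l (nat_lit 164409071567484)) (T.l (nat_lit 366647485844223006932444251))) (T.n (nat_lit 1070) (T.l (nat_lit 486993232704502132035688218312711)) (T.l (nat_lit 7296868143614525105184772))))))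 (T.n (nat_lit 1079) (T.n (nat_lit 1075) (T.n (nat_lit 1073) (T.n (nat_lit 1072) (T.l (nat_lit 5328954905878694989167468592)) (T.l (nat_lit 553474427708714336500))) (T.n (nat_lit 1074) (T.l (nat_lit 73791506840966324228)) (T.l (nat_lit 59447416096066389833383174151)))) (T.n (nat_lit 1077) (T.n (nat_lit 1076) (T.l (nat_lit 47518880296667786592276)) (T.l (nat_lit 553474986810233872570))) (T.n (nat_lit 1078) (T.l (nat_lit 67562864996418894)) (T.l (nat_lit 37143040096545919883745960130))))) (T.n (nat_lit 1083) (T.n (nat_lit 1081) (T.n (nat_lit 1080) (T.l (nat_lit 9020944223854593)) (T.l (nat_lit 13821683737714))) (T.n (nat_lit 1082) (T.l (nat_lit 29054581299926005619565667)) (T.l (nat_lit 7555901980012636419678210)))) (T.n (nat_lit 1085) (T.n (nat_lit 1084) (T.l (nat_lit 2656335681554860131401)) (T.l (nat_lit 830762440286844))) (T.n (nat_lit 1086) (T.l (nat_lit 87523737805)) (T.l (nat_lit 31299776853880220818662042858070184)))))))) (T.n (nat_lit 1119) (T.n (nat_lit 1103) (T.n (nat_lit 1095) (T.n (nat_lit 1091) (T.n (nat_lit 1089) (T.n (nat_lit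 1088) (T.l (nat_lit 13824704102637)) (T.l (nat_lit 51547008160895142961307))) (T.n (nat_lit 1090) (T.l (nat_lit 13824704102593)) (T.l (nat_lit 1687217310)))) (T.n (nat_lit 1093) (T.n (nat_lit 1092) (T.l (nat_lit 331890430109817744564469841)) (T.l (nat_lit 332192661564721398435594309))) (T.n (nat_lit 1094) (T.l (nat_lit 822469181294972701545550665667881358515531420183240715)) (T.l (nat_lit 1686668360))))) (T.n (nat_lit 1099) (T.n (nat_lit 1097) (T.n (nat_lit 1096) (T.l (nat_lit 629551542722686)) (T.l (nat_lit 697173329036494))) (T.n (nat_lit 1098) (T.l (nat_lit 113190397258039387)) (T.l (nat_lit 330077004631044203084457030)))) (T.n (nat_lit 1101) (T.n (nat_lit 1100) (T.l (nat_lit 40292603104377468854297)) (T.l (nat_lit 330077004631072240503955548))) (T.n (nat_lit 1102) (T.l (nat_lit 4271496244929751261691989)) (T.l (nat_lit 5625608991642378258)))))) (T.n (nat_lit 1111) (T.n (nat_lit 1107) (T.n (nat_lit 1105) (T.n (nat_lit 1104) (T.l (nat_lit 3673932322786432221200496)) (T.l (nat_lit 104205227043216072272110604918988))) (T.n (nat_lit 1106)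 (T.l (nat_lit 185264785291628612487498025390318461320)) (T.l (nat_lit 4981592040738283676)))) (T.n (nat_lit 1109) (T.n (nat_lit 1108) (T.l (nat_lit 232815548656086042169736504486)) (T.l (nat_lit 532545734754640888579400036))) (T.n (nat_lit 1110) (T.l (nat_lit 68816529842652)) (T.l (nat_lit 23617998613034865116086291))))) (T.n (nat_lit 1115) (T.n (nat_lit 1113) (T.n (nat_lit 1112) (T.l (nat_lit 33896898869239129199316412893782508836)) (T.l (nat_lit 505439493876269918066115797003))) (T.n (nat_lit 1114) (T.l (nat_lit 5494505899835973637)) (T.l (nat_lit 5008048978681921730)))) (T.n (nat_lit 1117) (T.n (nat_lit 1116) (T.l (nat_lit 8321096663149)) (T.l (nat_lit 4944964559367692397))) (T.n (nat_lit 1118) (T.l (nat_lit 8995138)) (T.l (nat_lit 890420895788859924590))))))) (T.n (nat_lit 1135) (T.n (nat_lit 1127) (T.n (nat_lit 1123) (T.n (nat_lit 1121) (T.n (nat_lit 1120) (T.l (nat_lit 99686674795585684)) (T.l (nat_lit 5246705734603613270))) (T.n (nat_lit 1122) (T.l (nat_lit 816633824874952032448)) (T.l (nat_lit 827415)))) (T.n (nat_lit 1125) (T.n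 (nat_lit 1124) (T.l (nat_lit 99687224148934804)) (T.l (nat_lit 22432897147431142666200912257679446))) (T.n (nat_lit 1126) (T.l (nat_lit 442401)) (T.l (nat_lit 1335466))))) (T.n (nat_lit 1131) (T.n (nat_lit 1129) (T.n (nat_lit 1128) (T.l (nat_lit 2103262180397591920679)) (T.l (nat_lit 1474738))) (T.n (nat_lit 1130) (T.l (nat_lit 5179143425750581361)) (T.l (nat_lit 336018)))) (T.n (nat_lit 1133) (T.n (nat_lit 1132) (T.l (nat_lit 9266388)) (T.l (nat_lit 2211985))) (T.n (nat_lit 1134) (T.l (nat_lit 1220636)) (T.l (nat_lit 10781943)))))) (T.n (nat_lit 1143) (T.n (nat_lit 1139) (T.n (nat_lit 1137) (T.n (nat_lit 1136) (T.l (nat_lit 2828101)) (T.l (nat_lit 1147038))) (T.n (nat_lit 1138) (T.l (nat_lit 10527121)) (T.l (nat_lit 12284003937)))) (T.n (nat_lit 1141) (T.n (nat_lit 1140) (T.l (nat_lit 1664330)) (T.l (nat_lit 2729635))) (T.n (nat_lit 1142) (T.l (nat_lit 2195567)) (T.l (nat_lit 352288))))) (T.n (nat_lit 1147) (T.n (nat_lit 1145) (T.n (nat_lit 1144) (T.l (nat_lit 221282763880898708)) (T.l (nat_lit 1171701))) (T.n (nat_lit 1146) (T.l (nat_lit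 41025730587921322411210)) (T.l (nat_lit 1261756)))) (T.n (nat_lit 1149) (T.n (nat_lit 1148) (T.l (nat_lit 3039568)) (T.l (nat_lit 13117089))) (T.n (nat_lit 1150) (T.l (nat_lit 1425590)) (T.l (nat_lit 11182664))))))))) (T.n (nat_lit 1215) (T.n (nat_lit 1183) (T.n (nat_lit 1167) (T.n (nat_lit 1159) (T.n (nat_lit 1155) (T.n (nat_lit 1153) (T.n (nat_lit 1152) (T.l (nat_lit 2793845)) (T.l (nat_lit 46928580581943096819904))) (T.n (nat_lit 1154) (T.l (nat_lit 2949107442120401271420977569878)) (T.l (nat_lit 14492416)))) (T.n (nat_lit 1157) (T.n (nat_lit 1156) (T.l (nat_lit 9773406)) (T.l (nat_lit 2868473))) (T.n (nat_lit 1158) (T.l (nat_lit 3424554704118955821144757575966)) (T.l (nat_lit 12058921))))) (T.n (nat_lit 1163) (T.n (nat_lit 1161) (T.n (nat_lit 1160) (T.l (nat_lit 3032427)) (T.l (nat_lit 3081880))) (T.n (nat_lit 1162) (T.l (nat_lit 13574728)) (T.l (nat_lit 1482978)))) (T.n (nat_lit 1165) (T.n (nat_lit 1164) (T.l (nat_lit 17876260359885265968660519)) (T.l (nat_lit 1564828))) (T.n (nat_lit 1166) (T.l (nat_lit 10380060)) (T.l (nat_lit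 607554397495429)))))) (T.n (nat_lit 1175) (T.n (nat_lit 1171) (T.n (nat_lit 1169) (T.n (nat_lit 1168) (T.l (nat_lit 9052651)) (T.l (nat_lit 12169388393806))) (T.n (nat_lit 1170) (T.l (nat_lit 99691622405570669)) (T.l (nat_lit 4962968993696079907)))) (T.n (nat_lit 1173) (T.n (nat_lit 1172) (T.l (nat_lit 99106203858526356)) (T.l (nat_lit 1402272))) (T.n (nat_lit 1174) (T.l (nat_lit 10429888)) (T.l (nat_lit 47106751177888519553974044067))))) (T.n (nat_lit 1179) (T.n (nat_lit 1177) (T.n (nat_lit 1176) (T.l (nat_lit 2933191)) (T.l (nat_lit 5752296))) (T.n (nat_lit 1178) (T.l (nat_lit 603084946481187)) (T.l (nat_lit 618549647754402)))) (T.n (nat_lit 1181) (T.n (nat_lit 1180) (T.l (nat_lit 94637239527186506)) (T.l (nat_lit 19350491918504902692799700))) (T.n (nat_lit 1182) (T.l (nat_lit 8120205347)) (T.l (nat_lit 43430978248739))))))) (T.n (nat_lit 1199) (T.n (nat_lit 1191) (T.n (nat_lit 1187) (T.n (nat_lit 1185) (T.n (nat_lit 1184) (T.l (nat_lit 201891875)) (T.l (nat_lit 2108360766986560200773))) (T.n (nat_lit 1186) (T.l (nat_lit 603716846298239))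 (T.l (nat_lit 1298188121780602561168621958733848)))) (T.n (nat_lit 1189) (T.n (nat_lit 1188) (T.l (nat_lit 15395914907711)) (T.l (nat_lit 2718541110910267838872573739105))) (T.n (nat_lit 1190) (T.l (nat_lit 1333336398374923199617)) (T.l (nat_lit 303490782957761346953360))))) (T.n (nat_lit 1195) (T.n (nat_lit 1193) (T.n (nat_lit 1192) (T.l (nat_lit 162760709212791937)) (T.l (nat_lit 630097002685569))) (T.n (nat_lit 1194) (T.l (nat_lit 558410970411189158080)) (T.l (nat_lit 37474324025560289405778346228)))) (T.n (nat_lit 1197) (T.n (nat_lit 1196) (T.l (nat_lit 26943241693052274855371848)) (T.l (nat_lit 47149909994432151208049))) (T.n (nat_lit 1198) (T.l (nat_lit 11101836)) (T.l (nat_lit 5558045027605324943)))))) (T.n (nat_lit 1207) (T.n (nat_lit 1203) (T.n (nat_lit 1201) (T.n (nat_lit 1200) (T.l (nat_lit 4980993286057148564)) (T.l (nat_lit 66593879728213))) (T.n (nat_lit 1202) (T.l (nat_lit 4926941846137816157)) (T.l (nat_lit 24182063103101026913796159)))) (T.n (nat_lit 1205) (T.n (nat_lit 1204) (T.l (nat_lit 73688639095)) (T.l (nat_lit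 29054691836256641318716554))) (T.n (nat_lit 1206) (T.l (nat_lit 25921003653732172934636558355375218)) (T.l (nat_lit 74626580613))))) (T.n (nat_lit 1211) (T.n (nat_lit 1209) (T.n (nat_lit 1208) (T.l (nat_lit 331892712731675114275618902)) (T.l (nat_lit 283770758399041725))) (T.n (nat_lit 1210) (T.l (nat_lit 604504730286304459506787)) (T.l (nat_lit 40619825129878746431551)))) (T.n (nat_lit 1213) (T.n (nat_lit 1212) (T.l (nat_lit 331890683526829461150113925)) (T.l (nat_lit 24036083058))) (T.n (nat_lit 1214) (T.l (nat_lit 257335203889184819)) (T.l (nat_lit 95238579544)))))))) (T.n (nat_lit 1247) (T.n (nat_lit 1231) (T.n (nat_lit 1223) (T.n (nat_lit 1219) (T.n (nat_lit 1217) (T.n (nat_lit 1216) (T.l (nat_lit 618553338741922)) (T.l (nat_lit 33854645622545853702045707))) (T.n (nat_lit 1218) (T.l (nat_lit 3327424201027475462053900)) (T.l (nat_lit 36736956738699300)))) (T.n (nat_lit 1221) (T.n (nat_lit 1220) (T.l (nat_lit 1596788964869827787075572725194177460830247)) (T.l (nat_lit 183766057124181043027374218001209901192))) (T.n (nat_lit 1222)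 (T.l (nat_lit 40288116937507358777429)) (T.l (nat_lit 44646043693177947889749))))) (T.n (nat_lit 1227) (T.n (nat_lit 1225) (T.n (nat_lit 1224) (T.l (nat_lit 910236148580873595772997)) (T.l (nat_lit 52366777858290540686795563059))) (T.n (nat_lit 1226) (T.l (nat_lit 58549622922919967)) (T.l (nat_lit 1505416668388861611400719966293290502340744)))) (T.n (nat_lit 1229) (T.n (nat_lit 1228) (T.l (nat_lit 63658503702052950)) (T.l (nat_lit 40251002765208795473049))) (T.n (nat_lit 1230) (T.l (nat_lit 18133966148384136696407109)) (T.l (nat_lit 23916646539524722533654623)))))) (T.n (nat_lit 1239) (T.n (nat_lit 1235) (T.n (nat_lit 1233) (T.n (nat_lit 1232) (T.l (nat_lit 1001051121825924816991)) (T.l (nat_lit 40361786783300189782153))) (T.n (nat_lit 1234) (T.l (nat_lit 40329501088423696457823)) (T.l (nat_lit 9007822360936543)))) (T.n (nat_lit 1237) (T.n (nat_lit 1236) (T.l (nat_lit 9007822360936533)) (T.l (nat_lit 63697458987024719))) (T.n (nat_lit 1238) (T.l (nat_lit 7775569617006)) (T.l (nat_lit 2040658632232420592287459817536965563999027456)))))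 (T.n (nat_lit 1243) (T.n (nat_lit 1241) (T.n (nat_lit 1240) (T.l (nat_lit 334269317352715732285899087)) (T.l (nat_lit 359959844559123357039386669))) (T.n (nat_lit 1242) (T.l (nat_lit 1517884351471261496596057891420695605462384)) (T.l (nat_lit 249318835476535486511097346289081566594320)))) (T.n (nat_lit 1245) (T.n (nat_lit 1244) (T.l (nat_lit 49923154088754679145971)) (T.l (nat_lit 2243506771268158895))) (T.n (nat_lit 1246) (T.l (nat_lit 30123213427512639246385327493849187)) (T.l (nat_lit 2748231723475733499730454447271))))))) (T.n (nat_lit 1263) (T.n (nat_lit 1255) (T.n (nat_lit 1251) (T.n (nat_lit 1249) (T.n (nat_lit 1248) (T.l (nat_lit 13903680105987177858719795)) (T.l (nat_lit 2735851759940487465241064177800))) (T.n (nat_lit 1250) (T.l (nat_lit 63697531398783015)) (T.l (nat_lit 40767368156982952371353)))) (T.n (nat_lit 1253) (T.n (nat_lit 1252) (T.l (nat_lit 6089140568160600422)) (T.l (nat_lit 32439026697431))) (T.n (nat_lit 1254) (T.l (nat_lit 7328256638300128823)) (T.l (nat_lit 263721320317783039202280322811032))))) (T.n (nat_lit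 1259) (T.n (nat_lit 1257) (T.n (nat_lit 1256) (T.l (nat_lit 742837241108118044808)) (T.l (nat_lit 14809489044376333527867431))) (T.n (nat_lit 1258) (T.l (nat_lit 17446198760336782641471148839217276076)) (T.l (nat_lit 2487973215600174507762425895)))) (T.n (nat_lit 1261) (T.n (nat_lit 1260) (T.l (nat_lit 40287707075303221052485)) (T.l (nat_lit 121679592818078872163792184389))) (T.n (nat_lit 1262) (T.l (nat_lit 1208999638754937736306783)) (T.l (nat_lit 347758050804969025651781)))))) (T.n (nat_lit 1271) (T.n (nat_lit 1267) (T.n (nat_lit 1265) (T.n (nat_lit 1264) (T.l (nat_lit 342524084431420690203840)) (T.l (nat_lit 7231223376211847373933))) (T.n (nat_lit 1266) (T.l (nat_lit 20381784857542752502525359891529)) (T.l (nat_lit 14811559822003545233760295)))) (T.n (nat_lit 1269) (T.n (nat_lit 1268) (T.l (nat_lit 2582733348991611723783)) (T.l (nat_lit 13601232225487397054424200))) (T.n (nat_lit 1270) (T.l (nat_lit 7454841140445114891829067846)) (T.l (nat_lit 2746086787725130879022329012233))))) (T.n (nat_lit 1275) (T.n (nat_lit 1273) (T.n (nat_lit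 1272) (T.l (nat_lit 22148393764015902244123959351124037)) (T.l (nat_lit 49854029310253339202612002825))) (T.n (nat_lit 1274) (T.l (nat_lit 73123169444971)) (T.l (nat_lit 5495126092853895479)))) (T.n (nat_lit 1277) (T.n (nat_lit 1276) (T.l (nat_lit 5053671009552375847)) (T.l (nat_lit 111052026545231))) (T.n (nat_lit 1278) (T.l (nat_lit 111052026504273)) (T.l (nat_lit 111052026512472)))))))))) (T.n (nat_lit 1407) (T.n (nat_lit 1343) (T.n (nat_lit 1311) (T.n (nat_lit 1295) (T.n (nat_lit 1287) (T.n (nat_lit 1283) (T.n (nat_lit 1281) (T.n (nat_lit 1280) (T.l (nat_lit 833782831116846166)) (T.l (nat_lit 4945086605301515352))) (T.n (nat_lit 1282) (T.l (nat_lit 6826205640852014022776)) (T.l (nat_lit 22615351854316)))) (T.n (nat_lit 1285) (T.n (nat_lit 1284) (T.l (nat_lit 1099712962567)) (T.l (nat_lit 9008848589676550))) (T.n (nat_lit 1286) (T.l (nat_lit 1512854658730632686682192)) (T.l (nat_lit 604573612837584140173316))))) (T.n (nat_lit 1291) (T.n (nat_lit 1289) (T.n (nat_lit 1288) (T.l (nat_lit 516239)) (T.l (nat_lit 4228194374))) (T.n (nat_lit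 1290) (T.l (nat_lit 458863)) (T.l (nat_lit 3758186519)))) (T.n (nat_lit 1293) (T.n (nat_lit 1292) (T.l (nat_lit 90223)) (T.l (nat_lit 9118842))) (T.n (nat_lit 1294) (T.l (nat_lit 573583)) (T.l (nat_lit 5179143425740365937)))))) (T.n (nat_lit 1303) (T.n (nat_lit 1299) (T.n (nat_lit 1297) (T.n (nat_lit 1296) (T.l (nat_lit 9266305)) (T.l (nat_lit 10191965))) (T.n (nat_lit 1298) (T.l (nat_lit 78527489117)) (T.l (nat_lit 655505)))) (T.n (nat_lit 1301) (T.n (nat_lit 1300) (T.l (nat_lit 950300)) (T.l (nat_lit 1879269456))) (T.n (nat_lit 1302) (T.l (nat_lit 12147277943)) (T.l (nat_lit 1598933))))) (T.n (nat_lit 1307) (T.n (nat_lit 1305) (T.n (nat_lit 1304) (T.l (nat_lit 10334986356)) (T.l (nat_lit 771313))) (T.n (nat_lit 1306) (T.l (nat_lit 12817883173)) (T.l (nat_lit 12169388089492)))) (T.n (nat_lit 1309) (T.n (nat_lit 1308) (T.l (nat_lit 303127)) (T.l (nat_lit 974889))) (T.n (nat_lit 1310) (T.l (nat_lit 221329)) (T.l (nat_lit 334268178604002868679811083))))))) (T.n (nat_lit 1327) (T.n (nat_lit 1319) (T.n (nat_lit 1315) (T.n (nat_lit 1313)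 (T.n (nat_lit 1312) (T.l (nat_lit 693576888106632291)) (T.l (nat_lit 3025392228468829986850))) (T.n (nat_lit 1314) (T.l (nat_lit 40361602137437959372885)) (T.l (nat_lit 701084373910896255170)))) (T.n (nat_lit 1317) (T.n (nat_lit 1316) (T.l (nat_lit 84747498569871)) (T.l (nat_lit 6953205237869960625930299))) (T.n (nat_lit 1318) (T.l (nat_lit 24481250011710662359165797193811021)) (T.l (nat_lit 84747489715406))))) (T.n (nat_lit 1323) (T.n (nat_lit 1321) (T.n (nat_lit 1320) (T.l (nat_lit 99507690562658)) (T.l (nat_lit 1888247951))) (T.n (nat_lit 1322) (T.l (nat_lit 182436666914018198745902598685169041491)) (T.l (nat_lit 267629373779777809933503717045778031659606043)))) (T.n (nat_lit 1325) (T.n (nat_lit 1324) (T.l (nat_lit 5621152593100185617)) (T.l (nat_lit 32126630656417937))) (T.n (nat_lit 1326) (T.l (nat_lit 67688209320116335)) (T.l (nat_lit 3632464051119230393648226)))))) (T.n (nat_lit 1335) (T.n (nat_lit 1331) (T.n (nat_lit 1329) (T.n (nat_lit 1328) (T.l (nat_lit 22550333457648)) (T.l (nat_lit 74219322486005973137))) (T.n (nat_lit 1330)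 (T.l (nat_lit 73686097955)) (T.l (nat_lit 902481)))) (T.n (nat_lit 1333) (T.n (nat_lit 1332) (T.l (nat_lit 787763)) (T.l (nat_lit 11953459))) (T.n (nat_lit 1334) (T.l (nat_lit 2236541)) (T.l (nat_lit 10511653))))) (T.n (nat_lit 1339) (T.n (nat_lit 1337) (T.n (nat_lit 1336) (T.l (nat_lit 10724756)) (T.l (nat_lit 11265428))) (T.n (nat_lit 1338) (T.l (nat_lit 10569108)) (T.l (nat_lit 3122580)))) (T.n (nat_lit 1341) (T.n (nat_lit 1340) (T.l (nat_lit 2614676)) (T.l (nat_lit 1138706))) (T.n (nat_lit 1342) (T.l (nat_lit 1238671)) (T.l (nat_lit 893197)))))))) (T.n (nat_lit 1375) (T.n (nat_lit 1359) (T.n (nat_lit 1351) (T.n (nat_lit 1347) (T.n (nat_lit 1345) (T.n (nat_lit 1344) (T.l (nat_lit 12788987)) (T.l (nat_lit 74366338206))) (T.n (nat_lit 1346) (T.l (nat_lit 59997070485109)) (T.l (nat_lit 901133)))) (T.n (nat_lit 1349) (T.n (nat_lit 1348) (T.l (nat_lit 57724427599878)) (T.l (nat_lit 12432921700335176714798316))) (T.n (nat_lit 1350) (T.l (nat_lit 617378531722338)) (T.l (nat_lit 2845716564399882363973))))) (T.n (nat_lit 1355) (T.n (nat_lit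 1353) (T.n (nat_lit 1352) (T.l (nat_lit 2704001057187088256106335027272)) (T.l (nat_lit 42907131222969752240134))) (T.n (nat_lit 1354) (T.l (nat_lit 5062724941751206320)) (T.l (nat_lit 330983994085120250394214494)))) (T.n (nat_lit 1357) (T.n (nat_lit 1356) (T.l (nat_lit 3126420046647858462532470118129678)) (T.l (nat_lit 43645019600029379682360))) (T.n (nat_lit 1358) (T.l (nat_lit 424193317138785354)) (T.l (nat_lit 42162700884581589088)))))) (T.n (nat_lit 1367) (T.n (nat_lit 1363) (T.n (nat_lit 1361) (T.n (nat_lit 1360) (T.l (nat_lit 1678598199)) (T.l (nat_lit 4945005174734929935))) (T.n (nat_lit 1362) (T.l (nat_lit 928571734521258125)) (T.l (nat_lit 864698907782104145)))) (T.n (nat_lit 1365) (T.n (nat_lit 1364) (T.l (nat_lit 73686771060)) (T.l (nat_lit 107115700354))) (T.n (nat_lit 1366) (T.l (nat_lit 40809165369762066874562)) (T.l (nat_lit 610230036283617))))) (T.n (nat_lit 1371) (T.n (nat_lit 1369) (T.n (nat_lit 1368) (T.l (nat_lit 600342476832859)) (T.l (nat_lit 614701231940016))) (T.n (nat_lit 1370) (T.l (nat_lit 113931929869813033362133196804))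 (T.l (nat_lit 25293129744495)))) (T.n (nat_lit 1373) (T.n (nat_lit 1372) (T.l (nat_lit 5206212862799389783)) (T.l (nat_lit 1508362739921825677250763393041205563663438))) (T.n (nat_lit 1374) (T.l (nat_lit 101224509888970046619244174628729409369748921918539)) (T.l (nat_lit 109964119221919))))))) (T.n (nat_lit 1391) (T.n (nat_lit 1383) (T.n (nat_lit 1379) (T.n (nat_lit 1377) (T.n (nat_lit 1376) (T.l (nat_lit 4990659648446588173)) (T.l (nat_lit 4990659648446719245))) (T.n (nat_lit 1378) (T.l (nat_lit 2225045472207832193)) (T.l (nat_lit 41812068275550912584)))) (T.n (nat_lit 1381) (T.n (nat_lit 1380) (T.l (nat_lit 22475932946944286408692651824160773)) (T.l (nat_lit 334917578169743866462356714))) (T.n (nat_lit 1382) (T.l (nat_lit 4990660818960639240)) (T.l (nat_lit 23591173265079334431162252674007042))))) (T.n (nat_lit 1387) (T.n (nat_lit 1385) (T.n (nat_lit 1384) (T.l (nat_lit 9)) (T.l (nat_lit 8))) (T.n (nat_lit 1386) (T.l (nat_lit 264)) (T.l (nat_lit 1273)))) (T.n (nat_lit 1389) (T.n (nat_lit 1388) (T.l (nat_lit 203)) (T.l (nat_lit 1512301098763196479309040)))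 (T.n (nat_lit 1390) (T.l (nat_lit 4913428366331814025)) (T.l (nat_lit 329774841914561868612354143)))))) (T.n (nat_lit 1399) (T.n (nat_lit 1395) (T.n (nat_lit 1393) (T.n (nat_lit 1392) (T.l (nat_lit 40250822591609574301758)) (T.l (nat_lit 184494463443565453319))) (T.n (nat_lit 1394) (T.l (nat_lit 599783995621424)) (T.l (nat_lit 76378965426)))) (T.n (nat_lit 1397) (T.n (nat_lit 1396) (T.l (nat_lit 40250822591536953861193)) (T.l (nat_lit 1563145693912407352640644))) (T.n (nat_lit 1398) (T.l (nat_lit 4913430492130369673)) (T.l (nat_lit 2926823957280242149558343656823))))) (T.n (nat_lit 1403) (T.n (nat_lit 1401) (T.n (nat_lit 1400) (T.l (nat_lit 22473610594100640125366831162122301)) (T.l (nat_lit 829214846382045845652811812044737712264116824705654971))) (T.n (nat_lit 1402) (T.l (nat_lit 4990659643068948648)) (T.l (nat_lit 2743644153913365464639291474176)))) (T.n (nat_lit 1405) (T.n (nat_lit 1404) (T.l (nat_lit 616836359431408)) (T.l (nat_lit 5255704628004577286))) (T.n (nat_lit 1406) (T.l (nat_lit 625701447959732)) (T.l (nat_lit 663556)))))))))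 (T.n (nat_lit 1471) (T.n (nat_lit 1439) (T.n (nat_lit 1423) (T.n (nat_lit 1415) (T.n (nat_lit 1411) (T.n (nat_lit 1409) (T.n (nat_lit 1408) (T.l (nat_lit 2993308492279438410882)) (T.l (nat_lit 40878282414462861288528))) (T.n (nat_lit 1410) (T.l (nat_lit 15395923444980)) (T.l (nat_lit 611887693210708)))) (T.n (nat_lit 1413) (T.n (nat_lit 1412) (T.l (nat_lit 115607417901315072069)) (T.l (nat_lit 1729597317215))) (T.n (nat_lit 1414) (T.l (nat_lit 907616710954922300817477)) (T.l (nat_lit 9825248126549297366200503964212470869))))) (T.n (nat_lit 1419) (T.n (nat_lit 1417) (T.n (nat_lit 1416) (T.l (nat_lit 5710579726172299305)) (T.l (nat_lit 2176729911353485787142))) (T.n (nat_lit 1418) (T.l (nat_lit 4093713511449682247339193420652093235228)) (T.l (nat_lit 17871911571431314659024991)))) (T.n (nat_lit 1421) (T.n (nat_lit 1420) (T.l (nat_lit 946950096826432469737541)) (T.l (nat_lit 237685998773881548203572158498))) (T.n (nat_lit 1422) (T.l (nat_lit 5674537186196725762)) (T.l (nat_lit 23284471474200704837494768044417059)))))) (T.n (nat_lit 1431)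 (T.n (nat_lit 1427) (T.n (nat_lit 1425) (T.n (nat_lit 1424) (T.l (nat_lit 63835946104752977542764181536774)) (T.l (nat_lit 61001084871050263435473389862972))) (T.n (nat_lit 1426) (T.l (nat_lit 7427982759796693283430023206)) (T.l (nat_lit 692777419767951)))) (T.n (nat_lit 1429) (T.n (nat_lit 1428) (T.l (nat_lit 908986675040472794023034)) (T.l (nat_lit 74021101586))) (T.n (nat_lit 1430) (T.l (nat_lit 12712802571159951061048493349)) (T.l (nat_lit 4967572107380311120))))) (T.n (nat_lit 1435) (T.n (nat_lit 1433) (T.n (nat_lit 1432) (T.l (nat_lit 74007721945879535763)) (T.l (nat_lit 111052026717266))) (T.n (nat_lit 1434) (T.l (nat_lit 618479461057650)) (T.l (nat_lit 2842651853624981770808611495947)))) (T.n (nat_lit 1437) (T.n (nat_lit 1436) (T.l (nat_lit 1099578885214)) (T.l (nat_lit 75497620642))) (T.n (nat_lit 1438) (T.l (nat_lit 334872641706967527688757389)) (T.l (nat_lit 8934522990))))))) (T.n (nat_lit 1455) (T.n (nat_lit 1447) (T.n (nat_lit 1443) (T.n (nat_lit 1441) (T.n (nat_lit 1440) (T.l (nat_lit 86448702661)) (T.l (nat_lit 299)))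 (T.n (nat_lit 1442) (T.l (nat_lit 1736)) (T.l (nat_lit 73191620976749)))) (T.n (nat_lit 1445) (T.n (nat_lit 1444) (T.l (nat_lit 500461439581988859614663746627)) (T.l (nat_lit 5075576575619186831))) (T.n (nat_lit 1446) (T.l (nat_lit 1642883789543385524331341723439059782198342)) (T.l (nat_lit 6605137057291631599935))))) (T.n (nat_lit 1451) (T.n (nat_lit 1449) (T.n (nat_lit 1448) (T.l (nat_lit 56407975607711883604593922156582789229723778)) (T.l (nat_lit 639445814861991))) (T.n (nat_lit 1450) (T.l (nat_lit 606128030802577865121929)) (T.l (nat_lit 22391931560891120866179569887011941)))) (T.n (nat_lit 1453) (T.n (nat_lit 1452) (T.l (nat_lit 183434092185740696248209804992007496997)) (T.l (nat_lit 4972633220195573911))) (T.n (nat_lit 1454) (T.l (nat_lit 40730433466364404072610)) (T.l (nat_lit 9473074344)))))) (T.n (nat_lit 1463) (T.n (nat_lit 1459) (T.n (nat_lit 1457) (T.n (nat_lit 1456) (T.l (nat_lit 5022505047697437843525)) (T.l (nat_lit 18441325702928698871309396))) (T.n (nat_lit 1458) (T.l (nat_lit 9010021384193130)) (T.l (nat_lit 40802834038880756539406961271907))))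 (T.n (nat_lit 1461) (T.n (nat_lit 1460) (T.l (nat_lit 9017096546066433)) (T.l (nat_lit 9009949241794561))) (T.n (nat_lit 1462) (T.l (nat_lit 4971976811888451603)) (T.l (nat_lit 9009949250724950))))) (T.n (nat_lit 1467) (T.n (nat_lit 1465) (T.n (nat_lit 1464) (T.l (nat_lit 604652299757762354946059)) (T.l (nat_lit 9009949250725003))) (T.n (nat_lit 1466) (T.l (nat_lit 4953311639111774366472093744)) (T.l (nat_lit 9010021392736348)))) (T.n (nat_lit 1469) (T.n (nat_lit 1468) (T.l (nat_lit 1172861624368)) (T.l (nat_lit 606937733406853))) (T.n (nat_lit 1470) (T.l (nat_lit 4972033912077762635)) (T.l (nat_lit 606937733423105)))))))) (T.n (nat_lit 1503) (T.n (nat_lit 1487) (T.n (nat_lit 1479) (T.n (nat_lit 1475) (T.n (nat_lit 1473) (T.n (nat_lit 1472) (T.l (nat_lit 606937742378054)) (T.l (nat_lit 606930486534150))) (T.n (nat_lit 1474) (T.l (nat_lit 606930495479917)) (T.l (nat_lit 274797166936515668)))) (T.n (nat_lit 1477) (T.n (nat_lit 1476) (T.l (nat_lit 1377709)) (T.l (nat_lit 1099587698736))) (T.n (nat_lit 1478) (T.l (nat_lit 604504730248921064670277))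 (T.l (nat_lit 332330267598456597523358869538463801))))) (T.n (nat_lit 1483) (T.n (nat_lit 1481) (T.n (nat_lit 1480) (T.l (nat_lit 5283046309326391365613846665)) (T.l (nat_lit 148642))) (T.n (nat_lit 1482) (T.l (nat_lit 2250511784814993097800)) (T.l (nat_lit 80942482672)))) (T.n (nat_lit 1485) (T.n (nat_lit 1484) (T.l (nat_lit 5166678497894472)) (T.l (nat_lit 2326169513049282203273959943298629634))) (T.n (nat_lit 1486) (T.l (nat_lit 697165669638289)) (T.l (nat_lit 5431360945241072744)))))) (T.n (nat_lit 1495) (T.n (nat_lit 1491) (T.n (nat_lit 1489) (T.n (nat_lit 1488) (T.l (nat_lit 34993305310487219381052031124)) (T.l (nat_lit 623785984025))) (T.n (nat_lit 1490) (T.l (nat_lit 940613742)) (T.l (nat_lit 7705508389967)))) (T.n (nat_lit 1493) (T.n (nat_lit 1492) (T.l (nat_lit 7705506980945)) (T.l (nat_lit 121496985526405))) (T.n (nat_lit 1494) (T.l (nat_lit 34718238937527520374750470186)) (T.l (nat_lit 4238066277054417515766866))))) (T.n (nat_lit 1499) (T.n (nat_lit 1497) (T.n (nat_lit 1496) (T.l (nat_lit 284290471980548628113566787724376))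 (T.l (nat_lit 40698499025242218987542))) (T.n (nat_lit 1498) (T.l (nat_lit 24481326470566274087065195863893090)) (T.l (nat_lit 4231278095380121407538258)))) (T.n (nat_lit 1501) (T.n (nat_lit 1500) (T.l (nat_lit 283956284116370543301318874415153)) (T.l (nat_lit 40563825409188406924034614317888831499))) (T.n (nat_lit 1502) (T.l (nat_lit 517607787213757743124)) (T.l (nat_lit 63110869005549754))))))) (T.n (nat_lit 1519) (T.n (nat_lit 1511) (T.n (nat_lit 1507) (T.n (nat_lit 1505) (T.n (nat_lit 1504) (T.l (nat_lit 4949054025058393260606645753446411)) (T.l (nat_lit 283956284116370543282627167773773))) (T.n (nat_lit 1506) (T.l (nat_lit 283956284116370543282627176849423)) (T.l (nat_lit 4999055511375709265)))) (T.n (nat_lit 1509) (T.n (nat_lit 1508) (T.l (nat_lit 7703896367120)) (T.l (nat_lit 666539965907911761))) (T.n (nat_lit 1510) (T.l (nat_lit 34662628792555570267878474838)) (T.l (nat_lit 4272044657221733380833416))))) (T.n (nat_lit 1515) (T.n (nat_lit 1513) (T.n (nat_lit 1512) (T.l (nat_lit 4231429817084196351444047)) (T.l (nat_lit 334274819386230876152816738)))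 (T.n (nat_lit 1514) (T.l (nat_lit 23126102559368271)) (T.l (nat_lit 995895375473329524)))) (T.n (nat_lit 1517) (T.n (nat_lit 1516) (T.l (nat_lit 40255777160252082553026)) (T.l (nat_lit 63059265367236717))) (T.n (nat_lit 1518) (T.l (nat_lit 7697656651909)) (T.l (nat_lit 23629019572531986816896197847056399)))))) (T.n (nat_lit 1527) (T.n (nat_lit 1523) (T.n (nat_lit 1521) (T.n (nat_lit 1520) (T.l (nat_lit 4103807133)) (T.l (nat_lit 4967495681179836444))) (T.n (nat_lit 1522) (T.l (nat_lit 34172716836118)) (T.l (nat_lit 3003296681006787911983722284170)))) (T.n (nat_lit 1525) (T.n (nat_lit 1524) (T.l (nat_lit 373799323669521478)) (T.l (nat_lit 2176923011910394749000))) (T.n (nat_lit 1526) (T.l (nat_lit 336685882579272421360066564)) (T.l (nat_lit 1239985144337846845692753256087559))))) (T.n (nat_lit 1531) (T.n (nat_lit 1529) (T.n (nat_lit 1528) (T.l (nat_lit 2256002346218684998740)) (T.l (nat_lit 33618397193418))) (T.n (nat_lit 1530) (T.l (nat_lit 2256002274202285466708)) (T.l (nat_lit 254596201240030079526272789083086727865716)))) (T.n (nat_lit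 1533) (T.n (nat_lit 1532) (T.l (nat_lit 5089680008381767828)) (T.l (nat_lit 590359467135158231225))) (T.n (nat_lit 1534) (T.l (nat_lit 4836224754771215960432825)) (T.l (nat_lit 1651079811214016133730686272264535062389828)))))))))))
def h3 : T := (T.n (nat_lit 1541) (T.n (nat_lit 1538) (T.n (nat_lit 1536) (T.l (nat_lit 10160536845196805074991495672705901638)) (T.n (nat_lit 1537) (T.l (nat_lit 1651079811214016133775986733391191210360836)) (T.l (nat_lit 151403794980204741292234186897)))) (T.n (nat_lit 1539) (T.l (nat_lit 18436783647061904194084866)) (T.n (nat_lit 1540) (T.l (nat_lit 33618386878478)) (T.l (nat_lit 73805593775677186117))))) (T.n (nat_lit 1544) (T.n (nat_lit 1542) (T.l (nat_lit 274753737636856967)) (T.n (nat_lit 1543) (T.l (nat_lit 2251308930122100793362)) (T.l (nat_lit 275401825317314600)))) (T.n (nat_lit 1545) (T.l (nat_lit 151403794758785874117626234031)) (T.n (nat_lit 1546) (T.l (nat_lit 8870181232749)) (T.l (nat_lit 0))))))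
def H : T := (T.n (nat_lit 1023) (T.n (nat_lit 511) h0 h1) (T.n (nat_lit 1535) h2 h3))
theorem hlast : getB H 1547 = 0 := by decide +kernel
end Vale.Agent.Lib.P038.Sat.I.L1_5
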